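import Vale.Agent.P183AU.Ftpg
import Vale.Agent.P183CF.Sing

/-!
A bijection of the singular points of two polar spaces of large dimension which preserves
orthogonality is induced by a semilinear similarity.
-/

set_option autoImplicit false
set_option linter.all false

namespace Vale.Agent.P183AU

open Module Vale.Agent.P183CF

section
variable {F V : Type*} [Field F] [AddCommGroup V] [Module F V]

/-- the span of a list of vectors -/
def sp (F : Type*) [Field F] [Module F V] (l : List V) : Submodule F V :=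
  Submodule.span F {x | x ∈ l}

lemma mem_sp {l : List V} {x : V} (h : x ∈ l) : x ∈ sp F l := Submodule.subset_span h

lemma finrank_sp (l : List V) : finrank F (sp F l) ≤ l.length := by
  classical
  have : {x | x ∈ l} = (l.toFinset : Set V) := by ext; simp
  rw [sp, this]
  exact (finrank_span_finset_le_card _).trans (List.toFinset_card_le l)

lemma sp_le {l : List V} {W : Submodule F V} (h : ∀ x ∈ l, x ∈ W) : sp F l ≤ W :=
  Submodule.span_le.2 h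

lemma sp_mono {l l' : List V} (h : ∀ x ∈ l, x ∈ l') : sp F l ≤ sp F l' :=
  sp_le fun x hx => mem_sp (h x hx)

lemma In2.mem {z x y : V} (h : In2 F z x y) {W : Submodule F V} (hx : x ∈ W) (hy : y ∈ W) :
    z ∈ W := by
  obtain ⟨a, b, rfl⟩ := h
  exact W.add_mem (W.smul_mem _ hx) (W.smul_mem _ hy)

lemma mem_sp2 {z x y : V} : z ∈ sp F [x, y] ↔ In2 F z x y := by
  refine ⟨fun h => ?_, fun h => h.mem (mem_sp (by simp)) (mem_sp (by simp))⟩
  have : {v | v ∈ [x, y]} = {x, y} := by ext; simp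
  rw [sp, this, Submodule.mem_span_pair] at h
  obtain ⟨a, b, e⟩ := h
  exact ⟨a, b, e.symm⟩

lemma mem_sp1 {z x : V} : z ∈ sp F [x] ↔ ∃ a : F, z = a • x := by
  have : {v | v ∈ [x]} = {x} := by ext; simp
  rw [sp, this, Submodule.mem_span_singleton]
  exact exists_congr fun a => eq_comm

lemma notMem_sp0 {z : V} (h : z ≠ 0) : z ∉ sp F [] := by simpa [sp] using h

variable [Finite F] [FiniteDimensional F V] (φ : Form F V) (hd : 31 ≤ finrank F V)
include hd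

lemma ex0 (l : List V) (hl : l.length ≤ 13) :
    ∃ z, φ.Q z = 0 ∧ z ∉ sp F l ∧ ∀ a ∈ l, φ.b a z = 0 := by
  have := finrank_sp (F := F) l
  obtain ⟨u, -, h1, h2, h3⟩ := φ.nd_top.exists_dual (U := sp F l) le_top
    (by rw [finrank_top]; omega) 0 0
  exact ⟨u, h2, h1, fun a ha => φ.b_symm_zero (h3 a (mem_sp ha))⟩

lemma ex1 (l : List V) (hl : l.length ≤ 12) {y : V} (hy : y ∉ sp F l) (t : F) :
    ∃ z, φ.Q z = 0 ∧ z ∉ sp F (y :: l) ∧ (∀ a ∈ l, φ.b a z = 0) ∧ φ.b y z = t := by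
  have := finrank_sp (F := F) (y :: l)
  obtain ⟨f, hf1, hf2⟩ := Submodule.exists_dual_map_eq_bot_of_notMem hy inferInstance
  obtain ⟨u, -, h1, h2, h3⟩ := φ.nd_top.exists_dual (U := sp F (y :: l)) le_top
    (by rw [finrank_top]; simp at this; omega) ((φ.ε * φ.σ t / f y) • f) 0
  refine ⟨u, h2, h1, fun a ha => φ.b_symm_zero ?_, ?_⟩
  · have : f a = 0 := (Submodule.mem_bot F).1 (hf2.le (Submodule.mem_map_of_mem (mem_sp ha)))
    rw [h3 a (mem_sp (by simp [ha]))]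
    simp [this]
  · rw [φ.herm u y, h3 y (mem_sp (by simp))]
    simp [hf1]

lemma eq_zero_of_sing {x : V} (h : ∀ y, φ.Q y = 0 → φ.b x y = 0) : x = 0 := by
  by_contra hx
  obtain ⟨z, h1, -, -, h2⟩ := ex1 φ hd [] (by simp) (notMem_sp0 hx) 1
  exact one_ne_zero (h2.symm.trans (h z h1))

lemma exists_sum (v : V) : ∃ x y, φ.Q x = 0 ∧ φ.Q y = 0 ∧ v = x + y := by
  by_cases hv : v = 0
  · exact ⟨0, 0, by simp, by simp, by simp [hv]⟩
  obtain ⟨z, h1, -, -, h2⟩ := ex1 φ hd [] (by simp) (notMem_sp0 hv) (φ.q v)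
  refine ⟨v - z, z, ?_, h1, by simp⟩
  rw [φ.Q_sub, h1, h2]
  simp [Form.Q]

lemma in2_iff {x y z : V} :
    In2 F z x y ↔ ∀ w, φ.Q w = 0 → w ≠ 0 → φ.b x w = 0 → φ.b y w = 0 → φ.b z w = 0 := by
  refine ⟨fun ⟨a, b, e⟩ w _ _ h1 h2 => by simp [e, h1, h2], fun h => ?_⟩
  by_contra hz
  obtain ⟨w, h1, h2, h3, h4⟩ := ex1 φ hd [x, y] (by simp) (mt mem_sp2.1 hz) 1
  exact one_ne_zero (h4.symm.trans (h w h1 (fun e => h2 (e ▸ zero_mem _)) (h3 x (by simp))
    (h3 y (by simp))))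

lemma sp_form : Sp F {x | φ.Q x = 0} fun x y => φ.b x y = 0 where
  smul c x hx := φ.Q_smul_zero hx c
  add x hx y hy e := by
    show φ.Q (x + y) = 0
    rw [φ.Q_add, hx, hy, e]; simp
  self x hx := φ.b_self_zero hx
  symm x y := φ.b_symm_zero
  adj_smul c x y e := by simp [e]
  adj_add x y z e e' := by simp [e, e']
  gen a b c d := by
    obtain ⟨z, h1, h2, h3⟩ := ex0 φ hd [a, b, c, d] (by simp)
    refine ⟨z, h1, h3 _ (by simp), h3 _ (by simp), h3 _ (by simp), h3 _ (by simp),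
      fun r s t u e => h2 ?_⟩
    rw [e]
    refine add_mem (add_mem (add_mem ?_ ?_) ?_) ?_ <;>
      exact Submodule.smul_mem _ _ (mem_sp (by simp))

end

variable {F V F' V' : Type*} [Field F] [AddCommGroup V] [Module F V]
  [Field F'] [AddCommGroup V'] [Module F' V']

/-- `G` is a `τ`-semilinear similarity with multiplier `κ`. -/
structure Sim (φ : Form F V) (φ' : Form F' V') (τ : F ≃+* F') (κ : F') (G : V ≃+ V') : Prop where
  ne : κ ≠ 0
  smul : ∀ (c : F) v, G (c • v) = τ c • G v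
  b : ∀ x y, φ'.b (G x) (G y) = κ * τ (φ.b x y)
  Q : ∀ x t, φ.Q x = φ.md t ↔ φ'.Q (G x) = φ'.md (κ * τ t)

variable [Finite F] [FiniteDimensional F V] [Finite F'] [FiniteDimensional F' V']

/-- A bijection of the singular points that preserves orthogonality. -/
structure PCol (φ : Form F V) (φ' : Form F' V') (β : V → V') : Prop where
  ne : ∀ x, φ.Q x = 0 → x ≠ 0 → β x ≠ 0
  sing : ∀ x, φ.Q x = 0 → x ≠ 0 → φ'.Q (β x) = 0
  perp : ∀ x y, φ.Q x = 0 → φ.Q y = 0 → x ≠ 0 → y ≠ 0 → (φ.b x y = 0 ↔ φ'.b (β x) (β y) = 0)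
  onto : ∀ w, φ'.Q w = 0 → w ≠ 0 → ∃ z, φ.Q z = 0 ∧ z ≠ 0 ∧ ∃ c : F', β z = c • w

namespace PCol

variable {φ : Form F V} {φ' : Form F' V'} {β : V → V'} (h : PCol φ φ' β)
  (hd : 31 ≤ finrank F V) (hd' : 31 ≤ finrank F' V')
include h hd hd'

lemma col : Col F F' {x | φ.Q x = 0} (fun x y => φ.b x y = 0) β where
  toSp := sp_form φ hd
  ne := h.ne
  line x hx y hy z hz x0 y0 z0 _ := by
    rw [in2_iff φ hd, in2_iff φ' hd']
    refine ⟨fun k w hw w0 h1 h2 => ?_, fun k w hw w0 h1 h2 => ?_⟩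
    · obtain ⟨u, hu, u0, c, e⟩ := h.onto w hw w0
      have hc : c ≠ 0 := fun e0 => h.ne u hu u0 (by rw [e, e0, zero_smul])
      have := (h.perp z u hz hu z0 u0).1 (k u hu u0
        ((h.perp x u hx hu x0 u0).2 (by simp [e, h1])) ((h.perp y u hy hu y0 u0).2 (by simp [e, h2])))
      simpa [e, hc] using this
    · exact (h.perp z w hz hw z0 w0).2 (k _ (h.sing w hw w0) (h.ne w hw w0)
        ((h.perp x w hx hw x0 w0).1 h1) ((h.perp y w hy hw y0 w0).1 h2))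
  onto x hx y hy x0 y0 e w w0 := by
    rintro ⟨a, b, rfl⟩
    refine h.onto _ ?_ w0
    rw [φ'.Q_add, φ'.Q_smul_zero (h.sing x hx x0), φ'.Q_smul_zero (h.sing y hy y0)]
    simp [(h.perp x y hx hy x0 y0).1 e]

lemma exists_g : ∃ (τ : F ≃+* F') (κ : F') (g : V → V'), κ ≠ 0 ∧
    (∀ v, φ.Q v = 0 → v ≠ 0 → ∃ c : F', c ≠ 0 ∧ g v = c • β v) ∧
    (∀ (c : F) v, φ.Q v = 0 → g (c • v) = τ c • g v) ∧
    ∀ x y, φ.Q x = 0 → φ.Q y = 0 → φ'.b (g x) (g y) = κ * τ (φ.b x y) := by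
  obtain ⟨τ, g, gl, ga, gs⟩ := (h.col hd hd').main
  have S := sp_form φ hd
  have g0 : g 0 = 0 := by simpa using gs 0 0 φ.Q_zero
  have gp : ∀ x y, φ.Q x = 0 → φ.Q y = 0 → (φ.b x y = 0 ↔ φ'.b (g x) (g y) = 0) := by
    intro x y hx hy
    by_cases x0 : x = 0
    · simp [x0, g0]
    by_cases y0 : y = 0
    · simp [y0, g0]
    obtain ⟨a, ha, e1⟩ := gl x hx x0
    obtain ⟨b, hb, e2⟩ := gl y hy y0
    rw [h.perp x y hx hy x0 y0, e1, e2]
    simp [ha, hb]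
  have k1 : ∀ x y y', φ.Q x = 0 → φ.Q y = 0 → φ.Q y' = 0 → φ.b y y' = 0 → φ.b x y = φ.b x y' →
      φ'.b (g x) (g y) = φ'.b (g x) (g y') := fun x y y' hx hy hy' e e' => by
    have hs : φ.Q (y - y') = 0 := S.sub hy hy' e
    have h1 := ga _ hs y' hy' (φ.b_symm_zero (S.adj_sub (φ.b_symm_zero e) (φ.b_self_zero hy')))
    rw [sub_add_cancel] at h1
    rw [h1, map_add, (gp x _ hx hs).1 (by simp [e']), zero_add]
  have k2 : ∀ x y y', φ.Q x = 0 → φ.Q y = 0 → φ.Q y' = 0 → x ∉ sp F [y, y'] → φ.b x y = φ.b x y' →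
      φ'.b (g x) (g y) = φ'.b (g x) (g y') := fun x y y' hx hy hy' e e' => by
    obtain ⟨z, h1, -, h2, h3⟩ := ex1 φ hd [y, y'] (by simp) e (φ.b x y)
    rw [k1 x y z hx hy h1 (h2 y (by simp)) h3.symm,
      k1 x y' z hx hy' h1 (h2 y' (by simp)) (e'.symm.trans h3.symm)]
  have k3 : ∀ x y y', φ.Q x = 0 → φ.Q y = 0 → φ.Q y' = 0 → φ.b x y = 1 → φ.b x y' = 1 →
      φ'.b (g x) (g y) = φ'.b (g x) (g y') := fun x y y' hx hy hy' e e' => by
    have x0 : x ≠ 0 := fun e0 => by simp [e0] at e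
    have := finrank_sp (F := F) [x, y, y']
    obtain ⟨z, -, h1, h2, h3⟩ := φ.nd_top.exists_dual (U := sp F [x, y, y']) le_top
      (by rw [finrank_top]; simp at this; omega) (φ.b y) 0
    have hz : φ.b x z = 1 := by
      rw [φ.herm z x, h3 x (mem_sp (by simp)), ← φ.herm y x, e]
    have k : ∀ u ∈ [y, y'], φ.b x u = 1 → x ∉ sp F [u, z] := fun u hu eu hm => by
      obtain ⟨a, b, e1⟩ := mem_sp2.1 hm
      by_cases hb : b = 0
      · have h4 : φ.b x x = a := by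
          nth_rewrite 2 [e1]
          simp [hb, eu]
        rw [φ.b_self_zero hx] at h4
        exact x0 (by rw [e1, hb, ← h4]; simp)
      · refine h1 (In2.mem (x := x) (y := u) ⟨b⁻¹, -(a / b), ?_⟩ (mem_sp (by simp))
          (mem_sp (List.mem_cons_of_mem _ hu)))
        rw [e1]
        match_scalars <;> field_simp <;> ring
    rw [k2 x y z hx hy h2 (k y (by simp) e) (e.trans hz.symm),
      k2 x y' z hx hy' h2 (k y' (by simp) e') (e'.trans hz.symm)]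
  have k4 : ∀ x, φ.Q x = 0 → x ≠ 0 → ∃ κ : F', ∀ y, φ.Q y = 0 →
      φ'.b (g x) (g y) = κ * τ (φ.b x y) := fun x hx x0 => by
    obtain ⟨z, h1, -, -, h2⟩ := ex1 φ hd [] (by simp) (notMem_sp0 x0) 1
    refine ⟨φ'.b (g x) (g z), fun y hy => ?_⟩
    by_cases e : φ.b x y = 0
    · rw [(gp x y hx hy).1 e, e, map_zero, mul_zero]
    · rw [k3 x z ((φ.b x y)⁻¹ • y) hx h1 (φ.Q_smul_zero hy _) h2 (by simp [e]), gs _ y hy]
      have : τ (φ.b x y) ≠ 0 := by simpa using e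
      rw [map_smul, map_inv₀, smul_eq_mul]
      field_simp
  have k5 : ∀ x x' κ κ', φ.Q x = 0 → φ.Q x' = 0 → φ.b x x' = 0 → I2 F x x' →
      (∀ y, φ.Q y = 0 → φ'.b (g x) (g y) = κ * τ (φ.b x y)) →
      (∀ y, φ.Q y = 0 → φ'.b (g x') (g y) = κ' * τ (φ.b x' y)) → κ = κ' := by
    intro x x' κ κ' hx hx' e hi h1 h2
    obtain ⟨μ, h3⟩ := k4 (x + x') (S.add x hx x' hx' e)
      (by simpa using hi.comb_ne (a := 1) one_ne_zero 1)
    rw [ga x hx x' hx' e] at h3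
    obtain ⟨y, y1, -, y2, y3⟩ := ex1 φ hd [x'] (by simp) (y := x) (fun hm =>
      hi.symm.not_in2 (let ⟨a, ha⟩ := mem_sp1.1 hm; ⟨a, 0, by simp [ha]⟩)) 1
    obtain ⟨z, z1, -, z2, z3⟩ := ex1 φ hd [x] (by simp) (y := x') (fun hm =>
      hi.not_in2 (let ⟨a, ha⟩ := mem_sp1.1 hm; ⟨a, 0, by simp [ha]⟩)) 1
    have a1 := h3 y y1
    have a2 := h3 z z1
    simp only [map_add, LinearMap.add_apply, h1 y y1, h2 y y1, h1 z z1, h2 z z1, y3, z3,
      y2 x' (by simp), z2 x (by simp), map_one, map_zero] at a1 a2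
    linear_combination a1 - a2
  obtain ⟨e, he, he1, -⟩ := ex0 φ hd [] (by simp)
  have e0 : e ≠ 0 := fun e0 => he1 (e0 ▸ zero_mem _)
  obtain ⟨κ, hκ⟩ := k4 e he e0
  refine ⟨τ, κ, g, fun e1 => ?_, gl, gs, fun x y hx hy => ?_⟩
  · obtain ⟨z, h1, -, -, h2⟩ := ex1 φ hd [] (by simp) (notMem_sp0 e0) 1
    have := (gp e z he h1).2 (by rw [hκ z h1, e1, zero_mul])
    exact one_ne_zero (h2.symm.trans this)
  by_cases x0 : x = 0
  · simp [x0, g0]
  obtain ⟨z, hz, h1, h2, h3⟩ := S.gen2 e x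
  obtain ⟨μ, hμ⟩ := k4 z hz (Col.i2_l e0 h3).ne_right
  obtain ⟨ν, hν⟩ := k4 x hx x0
  rw [k5 e z κ μ he hz h1 (Col.i2_l e0 h3) hκ hμ, ← k5 x z ν μ hx hz h2 (Col.i2_r x0 h3) hν hμ]
  exact hν y hy

/-- **The fundamental theorem for polar spaces.** -/
theorem main : ∃ (τ : F ≃+* F') (κ : F') (G : V ≃+ V'), Sim φ φ' τ κ G ∧
    ∀ v, φ.Q v = 0 → v ≠ 0 → ∃ c : F', c ≠ 0 ∧ G v = c • β v := by
  obtain ⟨τ, κ, g, hκ, gl, gs, gb⟩ := h.exists_g hd hd'
  have g0 : g 0 = 0 := by simpa using gs 0 0 φ.Q_zero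
  have gQ : ∀ x, φ.Q x = 0 → φ'.Q (g x) = 0 := fun x hx => by
    by_cases x0 : x = 0
    · simp [x0, g0]
    obtain ⟨c, -, e⟩ := gl x hx x0
    rw [e]
    exact φ'.Q_smul_zero (h.sing x hx x0) c
  have go : ∀ w, φ'.Q w = 0 → ∃ z, φ.Q z = 0 ∧ g z = w := fun w hw => by
    by_cases w0 : w = 0
    · exact ⟨0, by simp, by simp [w0, g0]⟩
    obtain ⟨z, hz, z0, c, e⟩ := h.onto w hw w0
    obtain ⟨d, hd0, e'⟩ := gl z hz z0
    have hc : c ≠ 0 := fun e0 => h.ne z hz z0 (by rw [e, e0, zero_smul])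
    refine ⟨τ.symm (d * c)⁻¹ • z, φ.Q_smul_zero hz _, ?_⟩
    rw [gs _ z hz, e', e, smul_smul, smul_smul, RingEquiv.apply_symm_apply, mul_assoc,
      inv_mul_cancel₀ (mul_ne_zero hd0 hc), one_smul]
  have uniq : ∀ u u' : V', (∀ y, φ.Q y = 0 → φ'.b u (g y) = φ'.b u' (g y)) → u = u' :=
    fun u u' k => sub_eq_zero.1 (eq_zero_of_sing φ' hd' fun w hw => by
      obtain ⟨z, hz, rfl⟩ := go w hw
      simp [k z hz])
  have ex : ∀ x, ∃ u, ∀ y, φ.Q y = 0 → φ'.b u (g y) = κ * τ (φ.b x y) := fun x => by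
    obtain ⟨a, b, ha, hb, rfl⟩ := exists_sum φ hd x
    exact ⟨g a + g b, fun y hy => by simp [gb a y ha hy, gb b y hb hy, mul_add]⟩
  choose G hG using ex
  have Gg : ∀ x, φ.Q x = 0 → G x = g x := fun x hx =>
    uniq _ _ fun y hy => by rw [hG x y hy, gb x y hx hy]
  have Ga : ∀ x y, G (x + y) = G x + G y := fun x y =>
    uniq _ _ fun z hz => by simp [hG _ z hz, mul_add]
  obtain ⟨e, he, he1, -⟩ := ex0 φ hd [] (by simp)
  have e0 : e ≠ 0 := fun e0 => he1 (e0 ▸ zero_mem _)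
  obtain ⟨f, hf, -, -, hef⟩ := ex1 φ hd [] (by simp) (notMem_sp0 e0) 1
  have hσ : ∀ c, φ'.σ (τ c) = τ (φ.σ c) := fun c => by
    have h1 := gb (c • e) f (φ.Q_smul_zero he c) hf
    rw [gs c e he, φ'.b_smul_left, gb e f he hf, φ.b_smul_left, hef] at h1
    simp only [map_one, mul_one] at h1
    exact mul_left_cancel₀ hκ (by rw [← h1, mul_comm])
  have Gs : ∀ (c : F) v, G (c • v) = τ c • G v := fun c v =>
    uniq _ _ fun y hy => by
      rw [φ'.b_smul_left, hG _ y hy, hG _ y hy, φ.b_smul_left, hσ, map_mul]; ring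
  have Gb : ∀ x y, φ'.b (G x) (G y) = κ * τ (φ.b x y) := fun x y => by
    obtain ⟨a, b, ha, hb, rfl⟩ := exists_sum φ hd y
    rw [Ga, Gg a ha, Gg b hb]
    simp [hG x a ha, hG x b hb, mul_add]
  let G1 : V →+ V' := AddMonoidHom.mk' G Ga
  have hinj : Function.Injective G1 := (injective_iff_map_eq_zero G1).2 fun x hx =>
    φ.nondeg x fun y => by
      have := Gb x y
      rw [show G x = 0 from hx] at this
      simpa [hκ] using this.symm
  have hsur : Function.Surjective G1 := fun w => by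
    obtain ⟨a, b, ha, hb, rfl⟩ := exists_sum φ' hd' w
    obtain ⟨x, hx, rfl⟩ := go a ha
    obtain ⟨y, hy, rfl⟩ := go b hb
    exact ⟨x + y, by rw [map_add, ← Gg x hx, ← Gg y hy]; rfl⟩
  have GQ : ∀ x, φ.Q x = 0 ↔ φ'.Q (G x) = 0 := fun x => by
    refine ⟨fun hx => Gg x hx ▸ gQ x hx, fun hx => ?_⟩
    obtain ⟨z, hz, e1⟩ := go _ hx
    rw [← Gg z hz] at e1
    rwa [← hinj e1]
  have hΛ : ∀ t, t ∈ φ.Λ ↔ κ * τ t ∈ φ'.Λ := fun t => by
    rw [← φ.md_eq_zero, ← Form.Q_pair he hf hef, GQ, Ga, Gs, φ'.Q_add, (GQ e).1 he,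
      φ'.Q_smul_zero ((GQ f).1 hf), φ'.b_smul_right, Gb, hef, map_one, mul_one, zero_add, zero_add,
      φ'.md_eq_zero, mul_comm]
  refine ⟨τ, κ, AddEquiv.ofBijective G1 ⟨hinj, hsur⟩, ⟨hκ, Gs, Gb, fun x t => ?_⟩,
    fun v hv v0 => ?_⟩
  · obtain ⟨a, b, ha, hb, rfl⟩ := exists_sum φ hd x
    show _ ↔ φ'.Q (G (a + b)) = _
    rw [Ga, φ.Q_add, φ'.Q_add, ha, hb, (GQ a).1 ha, (GQ b).1 hb, Gb, zero_add, zero_add, zero_add,
      zero_add, φ.md_eq_iff, φ'.md_eq_iff, hΛ, map_sub, mul_sub]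
  · show ∃ c : F', c ≠ 0 ∧ G v = c • β v
    rw [Gg v hv]
    exact gl v hv v0

end PCol

end Vale.Agent.P183AU
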