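import Vale.Agent.P183AU.Grp
import Vale.Agent.P183AU.Polar
import Vale.Agent.P183CF.Simple

/-!
Group theoretic description of the singular points of a polar space of large dimension.
-/

set_option autoImplicit false
set_option linter.all false

namespace Vale.Agent.P183AU

open Module Vale.Agent.P183CF Vale.Agent.P183CF.Form

variable {Γ F V : Type*} [Group Γ] [Field F] [AddCommGroup V] [Module F V]

lemma inv_sp {ρ : Γ →* (V ≃ₗ[F] V)} {M : Subgroup Γ} {l : List V} (h : ∀ x ∈ l, M ≤ St ρ x) :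
    Inv ρ M (sp F l) := fun γ hγ v hv =>
  (sp_le (W := (sp F l).comap (ρ γ : V →ₗ[F] V)) fun x hx => by
    obtain ⟨c, hc⟩ := h x hx hγ
    show ρ γ x ∈ sp F l
    rw [hc]
    exact Submodule.smul_mem _ _ (mem_sp hx)) hv

/-- the unipotent radical of the stabiliser of `W` -/
def Rad (φ : Form F V) (ρ : Γ →* (V ≃ₗ[F] V)) (W : Submodule F V) : Subgroup Γ where
  carrier := {γ | (∀ v ∈ W, ρ γ v = v) ∧ ∀ v ∈ φ.perp W, ρ γ v - v ∈ W}
  one_mem' := ⟨by simp, by simp⟩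
  mul_mem' := fun {a b} ha hb => ⟨fun v hv => by rw [rep_mul, hb.1 v hv, ha.1 v hv], fun v hv => by
    have := ha.1 _ (hb.2 v hv)
    rw [map_sub, sub_eq_iff_eq_add] at this
    rw [rep_mul, this, add_sub_assoc]
    exact W.add_mem (hb.2 v hv) (ha.2 v hv)⟩
  inv_mem' := fun {a} ha => by
    have k : ∀ v ∈ W, ρ a⁻¹ v = v := fun v hv => by
      nth_rewrite 1 [← ha.1 v hv]
      rw [rep_inv]
    refine ⟨k, fun v hv => ?_⟩
    have := k _ (ha.2 v hv)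
    rw [map_sub, rep_inv] at this
    rw [← neg_sub, this]
    exact W.neg_mem (ha.2 v hv)

/-- A representation whose image is a classical group. -/
structure FR (φ : Form F V) (ρ : Γ →* (V ≃ₗ[F] V)) : Prop where
  isom : ∀ γ, ρ γ ∈ φ.Isom
  onto : ∀ g ∈ φ.EW ⊤, ∃ γ, ρ γ = g
  dim : 31 ≤ finrank F V

namespace FR

variable {φ : Form F V} {ρ : Γ →* (V ≃ₗ[F] V)} (h : FR φ ρ)
include h

lemma b (γ : Γ) (x y : V) : φ.b (ρ γ x) (ρ γ y) = φ.b x y := (h.isom γ).1 x y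

lemma Q (γ : Γ) (x : V) : φ.Q (ρ γ x) = φ.Q x := (h.isom γ).2 x

lemma b_right (γ : Γ) (x y : V) : φ.b x (ρ γ y) = φ.b (ρ γ⁻¹ x) y := by
  rw [← h.b γ (ρ γ⁻¹ x), rep_inv']

lemma exists_rho {u v : V} (hu : φ.Q u = 0) (hv : φ.Q v = 0) (e : φ.b u v = 0) :
    ∃ γ, ∀ x, ρ γ x = x + φ.b u x • v - (φ.ε * φ.b v x) • u := by
  have hr : φ.RD u v 0 := ⟨hu, e, by simpa using hv⟩
  obtain ⟨γ, hγ⟩ := h.onto _ (rho_EW hr trivial trivial)
  exact ⟨γ, fun x => by rw [hγ, rho_apply]; simp⟩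

lemma perp_inv {M : Subgroup Γ} {W : Submodule F V} (hW : Inv ρ M W) : Inv ρ M (φ.perp W) :=
  fun γ hγ v hv x hx => by
    rw [h.b_right]
    exact hv _ (hW _ (M.inv_mem hγ) x hx)

lemma rad_nz {M : Subgroup Γ} {W : Submodule F V} (hW : Inv ρ M W) : Nz M (Rad φ ρ W) := by
  refine fun m hm γ hγ => ⟨fun v hv => ?_, fun v hv => ?_⟩
  · rw [rep_mul, rep_mul, hγ.1 _ (hW _ (M.inv_mem hm) v hv), rep_inv']
  · have := hW m hm _ (hγ.2 _ (h.perp_inv hW _ (M.inv_mem hm) v hv))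
    rwa [map_sub, rep_inv', ← rep_mul, ← rep_mul] at this

variable {p : ℕ} [hp : Fact p.Prime] [CharP F p]

lemma rad_pz (W : Submodule F V) : PZ p (Zs ρ) (Rad φ ρ W) := fun γ hγ => by
  refine ⟨2, unip_pow ρ fun v => ?_⟩
  have h1 : ρ γ v - v ∈ φ.perp W := fun x hx => by
    rw [map_sub, h.b_right, ((Rad φ ρ W).inv_mem hγ).1 x hx, sub_self]
  exact sub_eq_zero.2 (hγ.1 _ (hγ.2 _ h1))

variable [Finite F] [FiniteDimensional F V]

omit [CharP F p] in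
lemma rad_fix {u w : V} (hu : φ.Q u = 0) (u0 : u ≠ 0) (hw : Rad φ ρ (sp F [u]) ≤ St ρ w) :
    ∃ c : F, w = c • u := by
  by_contra hn
  rw [← mem_sp1] at hn
  obtain ⟨x, h1, h2, h3, h4⟩ := ex1 φ h.dim [u] (by simp) hn 1
  obtain ⟨γ, hγ⟩ := h.exists_rho hu h1 (h3 u (by simp))
  obtain ⟨c, hc⟩ := hw (show γ ∈ Rad φ ρ (sp F [u]) from ⟨fun v hv => by
    obtain ⟨a, rfl⟩ := mem_sp1.1 hv
    simp [hγ u, φ.b_self_zero hu, φ.b_symm_zero (h3 u (by simp))], fun v hv => by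
    rw [hγ, hv u (mem_sp (by simp))]
    exact mem_sp1.2 ⟨-(φ.ε * φ.b x v), by module⟩⟩)
  have i3 : I3 F u w x := i3_of (i2_of u0 fun k => hn (k.mem (mem_sp (by simp)) (mem_sp (by simp))))
    fun k => h2 (k.mem (mem_sp (by simp)) (mem_sp (by simp)))
  have := (i3 (-(φ.ε * φ.b x w)) (1 - c) (φ.b u w) (by
    rw [← sub_self (c • w)]
    nth_rewrite 1 [← hc]
    rw [hγ]
    module)).1
  rw [φ.herm w x, h4] at this
  simp at this

lemma loc_of_perp {u w : V} (hu : φ.Q u = 0) (hw : φ.Q w = 0) (u0 : u ≠ 0) (e : φ.b u w = 0) :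
    Loc p (Zs ρ) (St ρ u ⊓ St ρ w) := by
  refine ⟨Rad φ ρ (sp F [u, w]), fun γ hγ => ⟨⟨1, by simp [hγ.1 u (mem_sp (by simp))]⟩,
    ⟨1, by simp [hγ.1 w (mem_sp (by simp))]⟩⟩, h.rad_pz _, fun hle => ?_,
    h.rad_nz (inv_sp (by simp))⟩
  obtain ⟨x, h1, h2, h3⟩ := ex0 φ h.dim [u, w] (by simp)
  obtain ⟨γ, hγ⟩ := h.exists_rho hu h1 (h3 u (by simp))
  obtain ⟨c, hc⟩ := hle (show γ ∈ Rad φ ρ (sp F [u, w]) from ⟨fun v hv => by
    obtain ⟨a, b, rfl⟩ := mem_sp2.1 hv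
    simp [hγ u, hγ w, φ.b_self_zero hu, φ.b_symm_zero (h3 u (by simp)), e,
      φ.b_symm_zero (h3 w (by simp))], fun v hv => by
    rw [hγ, hv u (mem_sp (by simp))]
    exact mem_sp2.2 ⟨-(φ.ε * φ.b x v), 0, by module⟩⟩)
  obtain ⟨y, -, k2, k3, k4⟩ := ex1 φ h.dim [u] (by simp) (y := x)
    (fun k => h2 (sp_mono (by simp) k)) 1
  have i2 : I2 F u y := i2_of u0 fun k => k2 (k.mem (mem_sp (by simp)) (mem_sp (by simp)))
  have := (i2 (-φ.ε) (1 - c) (by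
    rw [← sub_self (c • y)]
    nth_rewrite 1 [← hc]
    rw [hγ, k4, k3 u (by simp)]
    module)).1
  simp [φ.ε_ne] at this

lemma loc_St {u : V} (hu : φ.Q u = 0) (u0 : u ≠ 0) : Loc p (Zs ρ) (St ρ u) := by
  simpa using h.loc_of_perp (p := p) hu hu u0 (φ.b_self_zero hu)

omit [CharP F p] in
lemma rank3 {u : V} (hu : φ.Q u = 0) (u0 : u ≠ 0) : Rank3 (St ρ u) := by
  have k : ∀ x y : Γ, x ∉ St ρ u → y ∉ St ρ u → (φ.b u (ρ x u) = 0 ↔ φ.b u (ρ y u) = 0) →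
      DC (St ρ u) x y := fun x y hx hy e => by
    obtain ⟨c, c0, hc⟩ : ∃ c : F, c ≠ 0 ∧ φ.b u (ρ x u) = c * φ.b u (ρ y u) := by
      by_cases e1 : φ.b u (ρ x u) = 0
      · exact ⟨1, one_ne_zero, by rw [e1, e.1 e1, mul_zero]⟩
      · exact ⟨_, div_ne_zero e1 (mt e.2 e1), (div_mul_cancel₀ _ (mt e.2 e1)).symm⟩
    obtain ⟨g, hg, h1, h2⟩ := trans2 φ.nd_top (by rw [finrank_top]; have := h.dim; omega)
      (x := u) (x' := u) (y := ρ x u) (y' := c • ρ y u) trivial trivial trivial trivial u0 u0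
      (fun k => hx (let ⟨a, ha⟩ := Submodule.mem_span_singleton.1 k; ⟨a, ha.symm⟩))
      (fun k => hy (let ⟨a, ha⟩ := Submodule.mem_span_singleton.1 k; ⟨c⁻¹ * a, by
        rw [mul_smul, ha, smul_smul, inv_mul_cancel₀ c0, one_smul]⟩)) rfl
      (by rw [h.Q, hu, φ.Q_smul_zero ((h.Q _ _).trans hu)]) (by rw [hc, φ.b_smul_right])
    obtain ⟨a, rfl⟩ := h.onto g hg
    refine ⟨a, ⟨1, by simp [h1]⟩, (y⁻¹ * a * x)⁻¹, inv_mem ⟨c, ?_⟩, by group⟩
    rw [rep_mul, rep_mul, h2, map_smul, rep_inv]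
  intro x y z hx hy hz
  by_cases e1 : φ.b u (ρ x u) = 0 ↔ φ.b u (ρ y u) = 0
  · exact Or.inl (k x y hx hy e1)
  by_cases e2 : φ.b u (ρ x u) = 0 ↔ φ.b u (ρ z u) = 0
  · exact Or.inr (Or.inl (k x z hx hz e2))
  exact Or.inr (Or.inr (k y z hy hz (by tauto)))

omit [CharP F p] in
/-- an Eichler transformation lowers the dimension of the intersection by two -/
lemma dec {W : Submodule F V} (hW : φ.TS W) (x : Γ)
    (h2 : 2 ≤ finrank F (W ⊓ W.map (ρ x : V →ₗ[F] V) : Submodule F V)) :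
    ∃ y : Γ, finrank F (W ⊓ W.map (ρ y : V →ₗ[F] V) : Submodule F V) + 2 =
      finrank F (W ⊓ W.map (ρ x : V →ₗ[F] V) : Submodule F V) ∧
      ¬ W.map (ρ y : V →ₗ[F] V) ≤ φ.perp W := by
  obtain ⟨A, hA⟩ : ∃ A, A = W ⊓ W.map (ρ x : V →ₗ[F] V) := ⟨_, rfl⟩
  rw [← hA] at h2 ⊢
  obtain ⟨a, ha, a0⟩ := Submodule.exists_mem_ne_zero_of_ne_bot (p := A) (by
    rintro rfl
    simp at h2)
  obtain ⟨a', ha', a1⟩ : ∃ a' ∈ A, a' ∉ sp F [a] := by
    by_contra hn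
    push Not at hn
    have := (Submodule.finrank_mono (show A ≤ sp F [a] from hn)).trans (finrank_sp [a])
    simp at this
    omega
  have i2 : I2 F a a' := i2_of a0 fun k => a1 (k.mem (mem_sp (by simp)) (mem_sp (by simp)))
  have hAW : A ≤ W := hA.le.trans inf_le_left
  have hA1 : ∀ v ∈ W.map (ρ x : V →ₗ[F] V), ∀ c ∈ A, φ.b c v = 0 := by
    rintro _ ⟨v, hv, rfl⟩ c hc
    obtain ⟨d, hd, rfl⟩ := (hA.le hc).2
    exact (h.b x d v).trans (hW.b_zero hd hv)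
  obtain ⟨e, e1, -, e2, e3⟩ := ex1 φ h.dim [a'] (by simp) (y := a)
    (fun k => i2.symm.not_in2 (let ⟨c, hc⟩ := mem_sp1.1 k; ⟨c, 0, by simp [hc]⟩)) 1
  obtain ⟨w, w1, -, w2, w3⟩ := ex1 φ h.dim [a, e] (by simp) (y := a') (fun k => by
    obtain ⟨c, d, hc⟩ := mem_sp2.1 k
    have : φ.b a a' = d := by
      rw [hc]
      simp [e3, hW.b_zero (hAW ha) (hAW ha)]
    rw [hW.b_zero (hAW ha) (hAW ha')] at this
    exact i2.not_in2 ⟨c, 0, by rw [hc, ← this]; simp⟩) 1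
  obtain ⟨γ, hγ⟩ := h.exists_rho e1 w1 (w2 e (by simp))
  have k1 : W ⊓ W.map (ρ (γ * x) : V →ₗ[F] V) = A ⊓ φ.perp (sp F [e, w]) := by
    rw [map_rep_mul]
    refine le_antisymm ?_ fun v hv => ⟨hAW hv.1, v, (hA.le hv.1).2, ?_⟩
    · rintro _ ⟨hv1, v, hv, rfl⟩
      have t1 := hW.b_zero (hAW ha') hv1
      have t2 := hW.b_zero (hAW ha) hv1
      simp only [LinearEquiv.coe_coe, hγ, map_add, map_sub, map_smul, hA1 v hv a ha,
        hA1 v hv a' ha', w3, e3, e2 a' (by simp), w2 a (by simp), smul_eq_mul] at t1 t2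
      have t3 : φ.b e v = 0 := by simpa using t1
      have t4 : φ.b w v = 0 := by simpa [φ.ε_ne] using t2
      have t5 : ρ γ v = v := by simp [hγ, t3, t4]
      simp only [LinearEquiv.coe_coe, t5] at hv1 ⊢
      exact ⟨hA.ge ⟨hv1, hv⟩, φ.mem_perp_span.2 (by simp [t3, t4])⟩
    · simp [hγ, hv.2 e (mem_sp (by simp)), hv.2 w (mem_sp (by simp))]
  refine ⟨γ * x, ?_, fun hle => ?_⟩
  · rw [k1]
    have d1 := φ.finrank_inf_perp A (sp F [e, w])
    have d2 := finrank_sp (F := F) [e, w]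
    have d3 : A ⊓ φ.perp (sp F [e]) < A := lt_of_le_of_ne inf_le_left fun k => by
      have := φ.b_symm_zero ((k.ge ha).2 e (mem_sp (by simp)))
      simp [e3] at this
    have d4 : A ⊓ φ.perp (sp F [e, w]) < A ⊓ φ.perp (sp F [e]) :=
      lt_of_le_of_ne (inf_le_inf_left _ (φ.perp_anti (sp_mono (by simp)))) fun k => by
        have := φ.b_symm_zero ((k.ge ⟨ha', φ.mem_perp_span.2 (by
          simpa using φ.b_symm_zero (e2 a' (by simp)))⟩).2 w (mem_sp (by simp)))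
        simp [w3] at this
    have d5 := Submodule.finrank_lt_finrank_of_lt d3
    have d6 := Submodule.finrank_lt_finrank_of_lt d4
    simp at d2
    omega
  · rw [map_rep_mul] at hle
    have := hle ⟨a, (hA.le ha).2, rfl⟩ a' (hAW ha')
    simp [hγ, hW.b_zero (hAW ha') (hAW ha), w3, e2 a' (by simp), φ.herm a e, e3, φ.ε_ne] at this

omit [CharP F p] in
lemma not_rank3 {M : Subgroup Γ} {W : Submodule F V} (hW : φ.TS W) (hM : Inv ρ M W)
    (h2 : 2 ≤ finrank F W) (h3 : Rank3 M) : False := by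
  let D : Γ → ℕ := fun x => finrank F (W ⊓ W.map (ρ x : V →ₗ[F] V) : Submodule F V)
  have hD : ∀ a ∈ M, ∀ b ∈ M, ∀ x, D (a * x * b) = D x := fun a ha b hb x =>
    finrank_inf_dc ρ hM ha hb x
  have e1 : W ⊓ W.map (ρ 1 : V →ₗ[F] V) = W := by rw [hM.map M.one_mem, inf_idem]
  have D1 : D 1 = finrank F W := by simp only [D]; rw [e1]
  obtain ⟨x, hx, hx'⟩ := h.dec hW 1 (by rw [e1]; exact h2)
  change D x + 2 = D 1 at hx
  by_cases h6 : 6 ≤ finrank F W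
  · obtain ⟨y, hy, -⟩ := h.dec hW x (by change 2 ≤ D x; omega)
    change D y + 2 = D x at hy
    obtain ⟨z, hz, -⟩ := h.dec hW y (by change 2 ≤ D y; omega)
    change D z + 2 = D y at hz
    exact h3.false D hD (x := x) (y := y) (z := z) (by omega) (by omega) (by omega) (by omega)
      (by omega) (by omega)
  let I : Γ → ℕ × Prop := fun x => (D x, W.map (ρ x : V →ₗ[F] V) ≤ φ.perp W)
  have hI : ∀ a ∈ M, ∀ b ∈ M, ∀ x, I (a * x * b) = I x := fun a ha b hb x => by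
    refine Prod.ext (hD a ha b hb x) (propext ?_)
    show W.map _ ≤ _ ↔ W.map _ ≤ _
    rw [map_rep_mul, hM.map hb, map_rep_mul]
    nth_rewrite 1 [← (h.perp_inv hM).map ha]
    exact Submodule.map_le_map_iff_of_injective (ρ a).injective _ _
  have I1 : W.map (ρ 1 : V →ₗ[F] V) ≤ φ.perp W := by rw [hM.map M.one_mem]; exact hW.2
  obtain ⟨a, ha, a0⟩ := Submodule.exists_mem_ne_zero_of_ne_bot (p := W) (by
    rintro rfl
    simp at h2)
  obtain ⟨a', rfl⟩ : ∃ a', a = a' := ⟨a, rfl⟩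
  obtain ⟨f, hf, -⟩ := exists_fun (U := (⊥ : Submodule F V)) (x := a) (by simpa using a0)
  obtain ⟨c, rfl⟩ := φ.riesz f
  obtain ⟨A, hA⟩ : ∃ A, A = W ⊓ φ.perp (F ∙ c) := ⟨_, rfl⟩
  have hAW : A ≤ W := hA.le.trans inf_le_left
  have aA : a ∉ A := fun k => by
    have := φ.mem_perp_singleton.1 (hA.le k).2
    simp [hf] at this
  have d1 : finrank F W ≤ finrank F A + 1 := by
    have := φ.finrank_inf_perp W (F ∙ c)
    have := finrank_span1 (F := F) c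
    rw [hA]
    omega
  have d2 := Submodule.finrank_mono hAW
  have hd := h.dim
  have k : ∀ g : Dual F V, (∀ y ∈ A, g y = 0) → ∃ γ : Γ, ρ γ a ∉ W ∧ (∀ y ∈ A, ρ γ y = y) ∧
      ∀ y ∈ W, φ.b (ρ γ a) y = g y := fun g hg => by
    obtain ⟨u, -, u1, u2, u3⟩ := φ.nd_top.exists_dual (U := W) le_top
      (by rw [finrank_top]; omega) g 0
    obtain ⟨t, ht, t1, t2⟩ := step φ.nd_top (U := A) le_top (by rw [finrank_top]; omega)
      (x := a) (x' := u) trivial trivial aA (fun k => u1 (hAW k)) ((hW.1 a ha).trans u2.symm)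
      fun y hy => by rw [hW.b_zero (hAW hy) ha, φ.b_symm_zero ((u3 y (hAW hy)).trans (hg y hy))]
    obtain ⟨γ, rfl⟩ := h.onto t ht
    exact ⟨γ, t2 ▸ u1, t1, t2 ▸ u3⟩
  obtain ⟨y, y1, y2, y3⟩ := k 0 (by simp)
  obtain ⟨z, -, z2, z3⟩ := k (φ.b c) fun y hy => φ.mem_perp_singleton.1 (hA.le hy).2
  have Iy : W.map (ρ y : V →ₗ[F] V) ≤ φ.perp W := by
    rintro _ ⟨v, hv, rfl⟩ w hw
    have t1 : v - φ.b c v • a ∈ A := hA.ge ⟨W.sub_mem hv (W.smul_mem _ ha),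
      φ.mem_perp_singleton.2 (by simp [hf])⟩
    have t2 := y2 _ t1
    rw [map_sub, map_smul, sub_eq_iff_eq_add] at t2
    simp only [LinearEquiv.coe_coe, t2, map_add, map_smul, hW.b_zero hw (hAW t1),
      φ.b_symm_zero (y3 w hw), smul_zero, add_zero]
  have Dy : D y < finrank F W := by
    refine Submodule.finrank_lt_finrank_of_lt (lt_of_le_of_ne inf_le_left fun k => y1 ?_)
    have t1 : W ≤ W.map (ρ y : V →ₗ[F] V) := inf_eq_left.1 k
    rw [Submodule.eq_of_le_of_finrank_eq t1 (LinearEquiv.finrank_map_eq _ _).symm]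
    exact ⟨a, ha, rfl⟩
  have Iz : ¬ W.map (ρ z : V →ₗ[F] V) ≤ φ.perp W := fun k => by
    have := φ.b_symm_zero (k ⟨a, ha, rfl⟩ a ha)
    simp [z3 a ha, hf] at this
  have Dz : finrank F A ≤ D z := Submodule.finrank_mono fun v hv => ⟨hAW hv, v, hAW hv, z2 v hv⟩
  refine h3.false I hI (x := x) (y := y) (z := z) (fun e => ?_) (fun e => ?_) (fun e => ?_)
    (fun e => ?_) (fun e => ?_) (fun e => ?_)
  · exact hx' ((congrArg Prod.snd e).mpr I1)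
  · have := congrArg Prod.fst e
    simp only [I] at this
    omega
  · exact Iz ((congrArg Prod.snd e).mpr I1)
  · exact hx' ((congrArg Prod.snd e).mpr Iy)
  · have := congrArg Prod.fst e
    simp only [I] at this
    omega
  · exact Iz ((congrArg Prod.snd e).mp Iy)

variable [Finite Γ]

lemma exists_iso {M : Subgroup Γ} (hM : Loc p (Zs ρ) M) : ∃ R : Submodule F V, R ≠ ⊥ ∧ Inv ρ M R ∧
    R ≤ φ.perp R ∧ ∀ v, M ≤ St ρ v → ∀ x ∈ R, φ.b v x = 0 := by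
  obtain ⟨Q, h1, h2, h3, h4⟩ := hM
  have k := Fx_inv ρ h2 h4
  obtain ⟨w, w1, w0, w2⟩ := exists_mem_Fx ρ h2 (W := φ.perp (Fx ρ h2))
    (mt φ.perp_eq_bot.1 (Fx_ne_top ρ h2 h3)) fun γ hγ => h.perp_inv k γ (h1 hγ)
  exact ⟨Fx ρ h2 ⊓ φ.perp (Fx ρ h2), fun e => w0 ((Submodule.mem_bot F).1 (e.le ⟨w2, w1⟩)),
    fun γ hγ v hv => ⟨k γ hγ v hv.1, h.perp_inv k γ hγ v hv.2⟩,
    inf_le_right.trans (φ.perp_anti inf_le_left), fun v hv x hx => hx.2 v (h1.trans hv)⟩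

lemma perp_of_loc {u w : V} (hu : φ.Q u = 0) (hw : φ.Q w = 0)
    (hl : Loc p (Zs ρ) (St ρ u ⊓ St ρ w)) : φ.b u w = 0 := by
  by_contra e
  obtain ⟨R, h1, h2, h3, h4⟩ := h.exists_iso hl
  obtain ⟨v, hv, v0⟩ := Submodule.exists_mem_ne_zero_of_ne_bot h1
  have t1 := h4 u inf_le_left v hv
  have t2 := h4 w inf_le_right v hv
  obtain ⟨z, z1, -, z2, z3⟩ := ex1 φ h.dim [u, w] (by simp) (y := v) (fun k => by
    obtain ⟨a, b, rfl⟩ := mem_sp2.1 k
    simp only [map_add, map_smul, φ.b_self_zero hu, φ.b_self_zero hw, smul_eq_mul, mul_zero,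
      zero_add, add_zero, mul_eq_zero, e, or_false, mt φ.b_symm_zero e] at t1 t2
    exact v0 (by simp [t1, t2])) 1
  have k : ∀ x, φ.Q x = 0 → (∀ a ∈ [u, w, z, v], φ.b a x = 0) → x ∈ R := fun x hx k => by
    obtain ⟨γ, hγ⟩ := h.exists_rho z1 hx (k z (by simp))
    have := R.sub_mem (h2 γ ⟨⟨1, by
      simp [hγ, φ.b_symm_zero (z2 u (by simp)), φ.b_symm_zero (k u (by simp))]⟩, ⟨1, by
      simp [hγ, φ.b_symm_zero (z2 w (by simp)), φ.b_symm_zero (k w (by simp))]⟩⟩ v hv) hv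
    rw [hγ, φ.b_symm_zero (k v (by simp)), φ.herm v z, z3] at this
    simpa [smul_smul] using R.smul_mem φ.ε this
  obtain ⟨x, x1, x2, x3⟩ := ex0 φ h.dim [u, w, z, v] (by simp)
  obtain ⟨y, y1, -, y2, y3⟩ := ex1 φ h.dim [u, w, z, v] (by simp) x2 1
  exact one_ne_zero (y3.symm.trans (h3 (k y y1 y2) x (k x x1 x3)))

lemma exists_base (P : Sylow p Γ) : ∃ v, φ.Q v = 0 ∧ v ≠ 0 ∧ P.1 ≤ St ρ v ∧
    ∀ W : Submodule F V, W ≠ ⊥ → Inv ρ P.1 W → v ∈ W := by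
  obtain ⟨u, hu, u1, -⟩ := ex0 φ h.dim [] (by simp)
  have u0 : u ≠ 0 := fun e => u1 (e ▸ zero_mem _)
  obtain ⟨g, h1, h2⟩ := P183AU.exists_base ρ P (h.rad_pz (sp F [u])) fun w => h.rad_fix hu u0
  exact ⟨_, (h.Q g u).trans hu, rep_ne ρ g u0, h1, h2⟩

/-- the invariant totally singular subspace of a local subgroup that contains a Sylow subgroup -/
lemma exists_ts {M P : Subgroup Γ} (hP : P ≤ M) {v : V} (hv : φ.Q v = 0)
    (hb : ∀ W : Submodule F V, W ≠ ⊥ → Inv ρ P W → v ∈ W) (hl : Loc p (Zs ρ) M) :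
    ∃ W, φ.TS W ∧ Inv ρ M W ∧ v ∈ W := by
  obtain ⟨R, h1, h2, h3, -⟩ := h.exists_iso hl
  have vR := hb R h1 fun γ hγ => h2 γ (hP hγ)
  refine ⟨Submodule.span F {x | ∃ m ∈ M, x = ρ m v}, ts_span ?_ ?_, fun γ hγ x hx => ?_,
    Submodule.subset_span ⟨1, M.one_mem, by simp⟩⟩
  · rintro _ ⟨m, -, rfl⟩
    exact (h.Q m v).trans hv
  · rintro _ ⟨m, hm, rfl⟩ _ ⟨n, hn, rfl⟩
    exact h3 (h2 n hn v vR) _ (h2 m hm v vR)
  · refine (Submodule.span_le.2 ?_ : _ ≤ (Submodule.span F _).comap (ρ γ : V →ₗ[F] V)) hx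
    rintro _ ⟨m, hm, rfl⟩
    exact Submodule.subset_span ⟨γ * m, M.mul_mem hγ hm, (rep_mul ρ _ _ _).symm⟩

lemma le_St {M P : Subgroup Γ} (hP : P ≤ M) {v : V} (hv : φ.Q v = 0) (v0 : v ≠ 0)
    (hb : ∀ W : Submodule F V, W ≠ ⊥ → Inv ρ P W → v ∈ W) (hl : Loc p (Zs ρ) M) (h3 : Rank3 M) :
    M ≤ St ρ v := fun m hm => by
  obtain ⟨W, h1, h2, h4⟩ := h.exists_ts hP hv hb hl
  by_contra hn
  refine h.not_rank3 h1 h2 ?_ h3
  have := Submodule.finrank_lt_finrank_of_lt (lt_of_le_of_ne (span1_le h4) fun k => hn (by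
    obtain ⟨c, hc⟩ := Submodule.mem_span_singleton.1 (k.ge (h2 m hm v h4))
    exact ⟨c, hc.symm⟩))
  rwa [finrank_span_singleton v0] at this

end FR

end Vale.Agent.P183AU
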