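import Vale.Agent.P183AU.FormGrp

/-!
Projective isomorphisms of classical groups of large dimension are induced by semilinear
similarities.
-/

set_option autoImplicit false
set_option linter.all false

namespace Vale.Agent.P183AU

open Module Vale.Agent.P183CF Vale.Agent.P183CF.Form

variable {Γ F V F' V' : Type*} [Group Γ] [Finite Γ] [Field F] [AddCommGroup V] [Module F V]
  [Field F'] [AddCommGroup V'] [Module F' V'] [Finite F] [FiniteDimensional F V]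
  [Finite F'] [FiniteDimensional F' V'] {φ : Form F V} {φ' : Form F' V'}
  {ρ : Γ →* (V ≃ₗ[F] V)} {ρ' : Γ →* (V' ≃ₗ[F'] V')}

omit [Finite Γ] [Finite F] [FiniteDimensional F V] [Finite F'] [FiniteDimensional F' V'] in
lemma St_rep_congr {u : V} {u' : V'} (h : St ρ u = St ρ' u') (γ : Γ) :
    St ρ (ρ γ u) = St ρ' (ρ' γ u') := by
  ext x
  rw [mem_St_rep, mem_St_rep, h]

omit [Finite Γ] in
lemma FR.trans (h : FR φ ρ) {u w : V} (hu : φ.Q u = 0) (hw : φ.Q w = 0) (u0 : u ≠ 0) (w0 : w ≠ 0) :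
    ∃ γ, ρ γ u = w := by
  obtain ⟨g, hg, e⟩ := trans1 φ.nd_top (by rw [finrank_top]; have := h.dim; omega) trivial trivial
    u0 w0 (hu.trans hw.symm)
  obtain ⟨γ, rfl⟩ := h.onto g hg
  exact ⟨γ, e⟩

omit [Finite Γ] in
lemma FR.smul_of_St (h : FR φ ρ) {u w : V} (hu : φ.Q u = 0) (u0 : u ≠ 0) (e : St ρ u ≤ St ρ w) :
    ∃ c : F, w = c • u :=
  h.rad_fix hu u0 fun γ hγ => e ⟨1, by simp [hγ.1 u (mem_sp (by simp))]⟩

omit [Finite Γ] in
lemma Sim.sing {τ : F ≃+* F'} {κ : F'} {G : V ≃+ V'} (h : Sim φ φ' τ κ G) (x : V) :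
    φ'.Q (G x) = 0 ↔ φ.Q x = 0 := by simpa using (h.Q x 0).symm

/-- **Isomorphisms of classical groups with forms.** -/
theorem form_iso (p : ℕ) [Fact p.Prime] [CharP F p] [CharP F' p] (h : FR φ ρ) (h' : FR φ' ρ')
    (hZ : Zs ρ = Zs ρ') : ∃ (τ : F ≃+* F') (κ : F') (G : V ≃+ V'), Sim φ φ' τ κ G ∧
      ∀ γ, ∃ c : F', ∀ v, G (ρ γ v) = c • ρ' γ (G v) := by
  classical
  obtain ⟨P⟩ : Nonempty (Sylow p Γ) := inferInstance
  obtain ⟨v, v1, v0, v2, v3⟩ := h.exists_base P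
  obtain ⟨v', v1', v0', v2', v3'⟩ := h'.exists_base P
  have e0 : St ρ v = St ρ' v' := le_antisymm
    (h'.le_St v2 v1' v0' v3' (hZ ▸ h.loc_St v1 v0) (h.rank3 v1 v0))
    (h.le_St v2' v1 v0 v3 (hZ ▸ h'.loc_St v1' v0') (h'.rank3 v1' v0'))
  have ex : ∀ u, φ.Q u = 0 ∧ u ≠ 0 → ∃ u', φ'.Q u' = 0 ∧ u' ≠ 0 ∧ St ρ u = St ρ' u' := fun u hu => by
    obtain ⟨γ, rfl⟩ := h.trans v1 hu.1 v0 hu.2
    exact ⟨ρ' γ v', (h'.Q _ _).trans v1', rep_ne ρ' γ v0', St_rep_congr e0 γ⟩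
  let β : V → V' := fun u => if hu : φ.Q u = 0 ∧ u ≠ 0 then (ex u hu).choose else 0
  have hβ : ∀ u, φ.Q u = 0 → u ≠ 0 → φ'.Q (β u) = 0 ∧ β u ≠ 0 ∧ St ρ u = St ρ' (β u) :=
    fun u h1 h2 => by
      have : β u = (ex u ⟨h1, h2⟩).choose := dif_pos ⟨h1, h2⟩
      rw [this]
      exact (ex u ⟨h1, h2⟩).choose_spec
  have pc : PCol φ φ' β :=
    { ne := fun x h1 h2 => (hβ x h1 h2).2.1
      sing := fun x h1 h2 => (hβ x h1 h2).1
      perp := fun x y hx hy x0 y0 => by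
        obtain ⟨a1, a2, a3⟩ := hβ x hx x0
        obtain ⟨b1, b2, b3⟩ := hβ y hy y0
        refine ⟨fun e => h'.perp_of_loc (p := p) a1 b1 ?_, fun e => h.perp_of_loc (p := p) hx hy ?_⟩
        · rw [← a3, ← b3, ← hZ]
          exact h.loc_of_perp hx hy x0 e
        · rw [a3, b3, hZ]
          exact h'.loc_of_perp a1 b1 a2 e
      onto := fun w hw w0 => by
        obtain ⟨γ, rfl⟩ := h'.trans v1' hw v0' w0
        have h1 := (h.Q γ v).trans v1
        have h2 := rep_ne ρ γ v0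
        exact ⟨ρ γ v, h1, h2, h'.smul_of_St hw w0
          ((St_rep_congr e0 γ).symm.trans (hβ _ h1 h2).2.2).le⟩ }
  obtain ⟨τ, κ, G, hS, hG⟩ := pc.main h.dim h'.dim
  have k : ∀ u, φ.Q u = 0 → u ≠ 0 → St ρ u = St ρ' (G u) := fun u h1 h2 => by
    obtain ⟨c, c0, e⟩ := hG u h1 h2
    rw [e, St_smul ρ' c0]
    exact (hβ u h1 h2).2.2
  refine ⟨τ, κ, G, hS, fun γ => ?_⟩
  let T : V' →+ V' := ((ρ' γ⁻¹ : V' →ₗ[F'] V') : V' →+ V').comp
    ((G : V →+ V').comp (((ρ γ : V →ₗ[F] V) : V →+ V).comp (G.symm : V' →+ V)))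
  have hT : ∀ u, T (G u) = ρ' γ⁻¹ (G (ρ γ u)) := fun u => by simp [T]
  obtain ⟨c, hc⟩ := scalar_of_sing φ'.nd_top (by rw [finrank_top]; have := h'.dim; omega) T
    fun w _ hw => by
      obtain ⟨u, rfl⟩ := G.surjective w
      rw [hS.sing] at hw
      by_cases u0 : u = 0
      · simp [u0]
      have h1 := (h.Q γ u).trans hw
      obtain ⟨c, hc⟩ := h'.smul_of_St (u := ρ' γ (G u)) (w := G (ρ γ u))
        ((h'.Q _ _).trans ((hS.sing u).2 hw)) (rep_ne ρ' γ (G.map_ne_zero_iff.2 u0))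
        ((St_rep_congr (k u hw u0) γ).symm.trans (k _ h1 (rep_ne ρ γ u0))).le
      rw [hT, hc, map_smul, rep_inv]
      exact Submodule.smul_mem _ _ (Submodule.mem_span_singleton_self _)
  refine ⟨c, fun u => ?_⟩
  have := congrArg (ρ' γ) ((hT u).symm.trans (hc _ trivial))
  rwa [rep_inv', map_smul] at this

end Vale.Agent.P183AU
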