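import Mathlib.Algebra.Module.Basic
import Mathlib.Algebra.Field.Basic
import Mathlib.Algebra.Ring.Equiv
import Mathlib.RingTheory.SimpleRing.Basic
import Mathlib.Tactic.Module
import Mathlib.Tactic.LinearCombination
import Mathlib.Tactic.FieldSimp

/-!
The fundamental theorem of projective geometry for the singular points of a space with an
orthogonality relation.
-/

set_option autoImplicit false
set_option linter.all false

namespace Vale.Agent.P183AU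

section
variable {F V : Type*} [Field F] [AddCommGroup V] [Module F V]

/-- two independent vectors -/
def I2 (F : Type*) [Field F] [Module F V] (x y : V) : Prop :=
  ∀ a b : F, a • x + b • y = 0 → a = 0 ∧ b = 0

/-- three independent vectors -/
def I3 (F : Type*) [Field F] [Module F V] (x y z : V) : Prop :=
  ∀ a b c : F, a • x + b • y + c • z = 0 → a = 0 ∧ b = 0 ∧ c = 0

/-- `z` is in the span of `x` and `y` -/
def In2 (F : Type*) [Field F] [Module F V] (z x y : V) : Prop := ∃ a b : F, z = a • x + b • y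

lemma I2.symm {x y : V} (h : I2 F x y) : I2 F y x := fun a b e =>
  (h b a (by rw [add_comm]; exact e)).symm

lemma I2.ne_left {x y : V} (h : I2 F x y) : x ≠ 0 := fun e =>
  one_ne_zero (h 1 0 (by simp [e])).1

lemma I2.ne_right {x y : V} (h : I2 F x y) : y ≠ 0 := h.symm.ne_left

lemma I2.comb_ne {x y : V} (h : I2 F x y) {a : F} (ha : a ≠ 0) (b : F) : a • x + b • y ≠ 0 :=
  fun e => ha (h a b e).1

lemma I2.sub_ne {x y : V} (h : I2 F x y) : x - y ≠ 0 := fun e =>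
  one_ne_zero (h 1 (-1) (by rw [← e]; module)).1

lemma i2_of {x y : V} (hx : x ≠ 0) (h : ¬ In2 F y x x) : I2 F x y := by
  intro a b e
  by_cases hb : b = 0
  · rw [hb, zero_smul, add_zero] at e
    exact ⟨(smul_eq_zero.1 e).resolve_right hx, hb⟩
  · refine absurd ⟨-(a / b), 0, ?_⟩ h
    have : y = b⁻¹ • (a • x + b • y) - (a / b) • x := by
      match_scalars <;> field_simp <;> ring
    rw [this, e]
    module

lemma I2.not_in2 {x y : V} (h : I2 F x y) : ¬ In2 F y x x := by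
  rintro ⟨a, b, e⟩
  exact one_ne_zero (h (-(a + b)) 1 (by rw [e]; module)).2

lemma i3_of {x y z : V} (h : I2 F x y) (hz : ¬ In2 F z x y) : I3 F x y z := by
  intro a b c e
  by_cases hc : c = 0
  · rw [hc, zero_smul, add_zero] at e
    exact ⟨(h a b e).1, (h a b e).2, hc⟩
  · refine absurd ⟨-(a / c), -(b / c), ?_⟩ hz
    have : z = c⁻¹ • (a • x + b • y + c • z) - (a / c) • x - (b / c) • y := by
      match_scalars <;> field_simp <;> ring
    rw [this, e]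
    module

lemma I3.i2 {x y z : V} (h : I3 F x y z) : I2 F x y := fun a b e =>
  ⟨(h a b 0 (by simpa using e)).1, (h a b 0 (by simpa using e)).2.1⟩

lemma I3.not_in2 {x y z : V} (h : I3 F x y z) : ¬ In2 F z x y := by
  rintro ⟨a, b, e⟩
  exact one_ne_zero (h (-a) (-b) 1 (by rw [e]; module)).2.2

lemma I3.swap {x y z : V} (h : I3 F x y z) : I3 F y x z := fun a b c e =>
  have := h b a c (by rw [← e]; module)
  ⟨this.2.1, this.1, this.2.2⟩

lemma I3.rot {x y z : V} (h : I3 F x y z) : I3 F z x y := fun a b c e =>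
  have := h b c a (by rw [← e]; module)
  ⟨this.2.2, this.1, this.2.1⟩

end

/-- A set `S` of singular vectors and an orthogonality relation. -/
structure Sp (F : Type*) {V : Type*} [Field F] [AddCommGroup V] [Module F V] (S : Set V)
    (adj : V → V → Prop) : Prop where
  smul : ∀ (c : F), ∀ x ∈ S, c • x ∈ S
  add : ∀ x ∈ S, ∀ y ∈ S, adj x y → x + y ∈ S
  self : ∀ x ∈ S, adj x x
  symm : ∀ x y, adj x y → adj y x
  adj_smul : ∀ (c : F) x y, adj x y → adj x (c • y)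
  adj_add : ∀ x y z, adj x y → adj x z → adj x (y + z)
  gen : ∀ a b c d : V, ∃ z ∈ S, adj a z ∧ adj b z ∧ adj c z ∧ adj d z ∧
    ∀ r s t u : F, z ≠ r • a + s • b + t • c + u • d

variable {F V F' V' : Type*} [Field F] [AddCommGroup V] [Module F V]
  [Field F'] [AddCommGroup V'] [Module F' V'] {S : Set V} {adj : V → V → Prop}

namespace Sp

lemma sub (h : Sp F S adj) {x y : V} (hx : x ∈ S) (hy : y ∈ S) (e : adj x y) : x - y ∈ S := by
  have := h.add x hx _ (h.smul (-1) y hy) (h.adj_smul (-1) x y e)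
  rwa [neg_one_smul, ← sub_eq_add_neg] at this

lemma adj_sub (h : Sp F S adj) {x y z : V} (e : adj x y) (e' : adj x z) : adj x (y - z) := by
  have := h.adj_add x _ _ e (h.adj_smul (-1) x z e')
  rwa [neg_one_smul, ← sub_eq_add_neg] at this

lemma gen2 (h : Sp F S adj) (a b : V) : ∃ z ∈ S, adj a z ∧ adj b z ∧ ¬ In2 F z a b := by
  obtain ⟨z, hz, h1, h2, -, -, h3⟩ := h.gen a b a a
  exact ⟨z, hz, h1, h2, fun ⟨r, s, e⟩ => h3 r s 0 0 (by simpa using e)⟩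

lemma zero_mem (h : Sp F S adj) : (0 : V) ∈ S := by
  obtain ⟨z, hz, -⟩ := h.gen2 0 0
  simpa using h.smul 0 z hz

end Sp

/-- A map of the singular points that preserves the singular lines. -/
structure Col (F F' : Type*) {V V' : Type*} [Field F] [AddCommGroup V] [Module F V] [Field F']
    [AddCommGroup V'] [Module F' V'] (S : Set V) (adj : V → V → Prop) (β : V → V') : Prop
    extends Sp F S adj where
  ne : ∀ x ∈ S, x ≠ 0 → β x ≠ 0
  line : ∀ x ∈ S, ∀ y ∈ S, ∀ z ∈ S, x ≠ 0 → y ≠ 0 → z ≠ 0 → adj x y →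
    (In2 F z x y ↔ In2 F' (β z) (β x) (β y))
  onto : ∀ x ∈ S, ∀ y ∈ S, x ≠ 0 → y ≠ 0 → adj x y → ∀ w, w ≠ 0 → In2 F' w (β x) (β y) →
    ∃ z ∈ S, z ≠ 0 ∧ ∃ c : F', β z = c • w

/-- `v'` is a nonzero vector on the image of the point `v` -/
def Lf (F' : Type*) [Field F'] [Module F' V'] (β : V → V') (v : V) (v' : V') : Prop :=
  ∃ c : F', c ≠ 0 ∧ v' = c • β v

/-- compatible lifts -/
def Rl (F' : Type*) [Field F'] [Module F' V'] (β : V → V') (v : V) (v' : V') (w : V) (w' : V') :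
    Prop := ∃ a : F', β (v - w) = a • (v' - w')

namespace Col

variable {β : V → V'} (h : Col F F' S adj β)
include h

lemma lf_i2 {x y : V} {x' y' : V'} (hx : x ∈ S) (hy : y ∈ S) (hi : I2 F x y) (lx : Lf F' β x x')
    (ly : Lf F' β y y') : I2 F' x' y' := by
  obtain ⟨a, ha, rfl⟩ := lx
  obtain ⟨b, hb, rfl⟩ := ly
  have h1 : I2 F' (β x) (β y) := i2_of (h.ne x hx hi.ne_left) fun e => hi.not_in2
    ((h.line x hx x hx y hy hi.ne_left hi.ne_left hi.ne_right (h.self x hx)).2 e)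
  intro c d e
  rw [smul_smul, smul_smul] at e
  simpa [ha, hb] using h1 _ _ e

lemma lf_i3 {x y z : V} {x' y' z' : V'} (hx : x ∈ S) (hy : y ∈ S) (hz : z ∈ S) (hxy : adj x y)
    (hi : I3 F x y z) (lx : Lf F' β x x') (ly : Lf F' β y y') (lz : Lf F' β z z') :
    I3 F' x' y' z' := by
  obtain ⟨a, ha, rfl⟩ := lx
  obtain ⟨b, hb, rfl⟩ := ly
  obtain ⟨c, hc, rfl⟩ := lz
  have h0 : I2 F' (β x) (β y) := h.lf_i2 hx hy hi.i2 ⟨1, one_ne_zero, by simp⟩ ⟨1, one_ne_zero, by simp⟩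
  have h1 : I3 F' (β x) (β y) (β z) := i3_of h0 fun e => hi.not_in2
    ((h.line x hx y hy z hz hi.i2.ne_left hi.i2.ne_right hi.rot.i2.ne_left hxy).2 e)
  intro r s t e
  rw [smul_smul, smul_smul, smul_smul] at e
  simpa [ha, hb, hc] using h1 _ _ _ e

lemma in2_lf {x y z : V} {x' y' : V'} (hx : x ∈ S) (hy : y ∈ S) (hz : z ∈ S) (hx0 : x ≠ 0)
    (hy0 : y ≠ 0) (hz0 : z ≠ 0) (hxy : adj x y) (hi : In2 F z x y) (lx : Lf F' β x x')
    (ly : Lf F' β y y') : In2 F' (β z) x' y' := by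
  obtain ⟨a, ha, rfl⟩ := lx
  obtain ⟨b, hb, rfl⟩ := ly
  obtain ⟨r, s, e⟩ := (h.line x hx y hy z hz hx0 hy0 hz0 hxy).1 hi
  refine ⟨r / a, s / b, ?_⟩
  rw [e, smul_smul, smul_smul, div_mul_cancel₀ _ ha, div_mul_cancel₀ _ hb]

lemma rl_symm {x y : V} {x' y' : V'} (hx : x ∈ S) (hy : y ∈ S) (hxy : adj x y) (hi : I2 F x y)
    (r : Rl F' β x x' y y') : Rl F' β y y' x x' := by
  obtain ⟨a, ha⟩ := r
  have hs := h.toSp.sub hx hy hxy
  obtain ⟨c, d, e⟩ := (h.line _ hs _ hs _ (h.toSp.sub hy hx (h.symm _ _ hxy)) hi.sub_ne hi.sub_ne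
    hi.symm.sub_ne (h.self _ hs)).1 ⟨-1, 0, by module⟩
  exact ⟨-((c + d) * a), by rw [e, ha]; module⟩

lemma exists_rl {x y : V} {x' : V'} (hx : x ∈ S) (hy : y ∈ S) (hxy : adj x y) (hi : I2 F x y)
    (lx : Lf F' β x x') : ∃ y', Lf F' β y y' ∧ Rl F' β x x' y y' := by
  have hs := h.toSp.sub hx hy hxy
  have l1 : ∀ v, Lf F' β v (β v) := fun v => ⟨1, one_ne_zero, by simp⟩
  obtain ⟨a, b, e⟩ := h.in2_lf hx hy hs hi.ne_left hi.ne_right hi.sub_ne hxy ⟨1, -1, by module⟩ lx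
    (l1 y)
  have h1 : I2 F' (β y) (β (x - y)) := h.lf_i2 hy hs
    (fun c d e => by
      have := hi d (c - d) (by rw [← e]; module)
      exact ⟨by simpa [this.1] using this.2, this.1⟩) (l1 _) (l1 _)
  have h2 : I2 F' x' (β (x - y)) := h.lf_i2 hx hs
    (fun c d e => by
      have := hi (c + d) (-d) (by rw [← e]; module)
      have h3 : d = 0 := by simpa using this.2
      exact ⟨by simpa [h3] using this.1, h3⟩) lx (l1 _)
  have ha : a ≠ 0 := fun e0 => one_ne_zero (h1 (-b) 1 (by rw [e, e0]; module)).2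
  have hb : b ≠ 0 := fun e0 => one_ne_zero (h2 (-a) 1 (by rw [e, e0]; module)).2
  refine ⟨(-(b / a)) • β y, ⟨_, by simp [ha, hb], rfl⟩, a, ?_⟩
  rw [e]
  match_scalars <;> field_simp

lemma rl_unique {x y : V} {x' y' y'' : V'} (hx : x ∈ S) (hy : y ∈ S) (hxy : adj x y)
    (hi : I2 F x y) (lx : Lf F' β x x') (ly : Lf F' β y y') (ly' : Lf F' β y y'')
    (r : Rl F' β x x' y y') (r' : Rl F' β x x' y y'') : y' = y'' := by
  have h1 := h.lf_i2 hx hy hi lx ⟨1, one_ne_zero, (one_smul _ _).symm⟩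
  obtain ⟨c, -, rfl⟩ := ly
  obtain ⟨d, -, rfl⟩ := ly'
  obtain ⟨a, ha⟩ := r
  obtain ⟨b, hb⟩ := r'
  have ha0 : a ≠ 0 := fun e => h.ne _ (h.toSp.sub hx hy hxy) hi.sub_ne (by rw [ha, e, zero_smul])
  have h2 := h1 (a - b) (b * d - a * c) (by
    rw [← sub_self (β (x - y))]
    nth_rewrite 1 [ha]
    rw [hb]
    module)
  have h3 : b = a := (sub_eq_zero.1 h2.1).symm
  have h4 := h2.2
  rw [h3, ← mul_sub, mul_eq_zero, sub_eq_zero] at h4
  rw [h4.resolve_left ha0]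

/-- the triangle lemma -/
lemma tri {u v w : V} {u' v' w' : V'} (hu : u ∈ S) (hv : v ∈ S) (hw : w ∈ S) (huv : adj u v)
    (huw : adj u w) (hvw : adj v w) (hi : I3 F u v w) (lu : Lf F' β u u') (lv : Lf F' β v v')
    (lw : Lf F' β w w') (r : Rl F' β u u' v v') (r' : Rl F' β u u' w w') : Rl F' β v v' w w' := by
  have h1 := h.lf_i3 hu hv hw huv hi lu lv lw
  have hvw0 : v - w ≠ 0 := hi.rot.rot.i2.sub_ne
  have hs := h.toSp.sub hv hw hvw
  obtain ⟨a, ha⟩ := r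
  obtain ⟨b, hb⟩ := r'
  obtain ⟨c, d, e⟩ := (h.line _ (h.toSp.sub hu hv huv) _ (h.toSp.sub hu hw huw) _ hs hi.i2.sub_ne
    hi.rot.i2.symm.sub_ne hvw0 (h.symm _ _ (h.toSp.adj_sub
      (h.symm _ _ (h.toSp.adj_sub (h.self u hu) huw))
      (h.symm _ _ (h.toSp.adj_sub (h.symm _ _ huv) hvw))))).1 ⟨-1, 1, by module⟩
  obtain ⟨r, s, e'⟩ := h.in2_lf hv hw hs hi.i2.ne_right hi.rot.i2.ne_left hvw0 hvw
    ⟨1, -1, by module⟩ lv lw
  have h2 := h1 (c * a + d * b) (-(c * a) - r) (-(d * b) - s) (by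
    rw [← sub_self (β (v - w))]
    nth_rewrite 1 [e]
    rw [e', ha, hb]
    module)
  refine ⟨d * b, ?_⟩
  rw [e, ha, hb]
  have h3 : c * a = -(d * b) := eq_neg_of_add_eq_zero_left h2.1
  rw [smul_smul, smul_smul, h3]
  module

/-- the lift of `v` determined by the base point `e` and the auxiliary point `z` -/
def Gz (F F' : Type*) [Field F] [Field F'] [Module F V] [Module F' V'] (S : Set V)
    (adj : V → V → Prop) (β : V → V') (e v : V) (v' : V') (z : V) : Prop :=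
  z ∈ S ∧ adj e z ∧ adj v z ∧ ¬ In2 F z e v ∧ Lf F' β v v' ∧
    ∃ z', Lf F' β z z' ∧ Rl F' β e (β e) z z' ∧ Rl F' β z z' v v'

omit h in
lemma i2_l {e v z : V} (he : e ≠ 0) (hz : ¬ In2 F z e v) : I2 F e z :=
  i2_of he fun ⟨a, b, h⟩ => hz ⟨a + b, 0, by rw [h]; module⟩

omit h in
lemma i2_r {e v z : V} (hv : v ≠ 0) (hz : ¬ In2 F z e v) : I2 F v z :=
  i2_of hv fun ⟨a, b, h⟩ => hz ⟨0, a + b, by rw [h]; module⟩

lemma exists_gz {e v z : V} (he : e ∈ S) (he0 : e ≠ 0) (hv : v ∈ S) (hv0 : v ≠ 0) (hz : z ∈ S)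
    (h1 : adj e z) (h2 : adj v z) (h3 : ¬ In2 F z e v) : ∃ v', Gz F F' S adj β e v v' z := by
  obtain ⟨z', l1, r1⟩ := h.exists_rl he hz h1 (i2_l he0 h3) ⟨1, one_ne_zero, (one_smul _ _).symm⟩
  obtain ⟨v', l2, r2⟩ := h.exists_rl hz hv (h.symm _ _ h2) (i2_r hv0 h3).symm l1
  exact ⟨v', hz, h1, h2, h3, l2, z', l1, r1, r2⟩

lemma gz_step {e v z y : V} {v' v'' : V'} (he : e ∈ S) (he0 : e ≠ 0) (hv : v ∈ S) (hv0 : v ≠ 0)
    (g : Gz F F' S adj β e v v' z) (g' : Gz F F' S adj β e v v'' y) (hzy : adj z y)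
    (h1 : ¬ In2 F y e z) (h2 : ¬ In2 F y z v) : v' = v'' := by
  obtain ⟨hz, ez, vz, nz, lv, z', lz, r1, r2⟩ := g
  obtain ⟨hy, ey, vy, ny, lv', y', ly, r3, r4⟩ := g'
  have le : Lf F' β e (β e) := ⟨1, one_ne_zero, (one_smul _ _).symm⟩
  have r5 := h.tri he hz hy ez ey hzy (i3_of (i2_l he0 nz) h1) le lz ly r1 r3
  have r6 := h.tri hz hv hy (h.symm _ _ vz) hzy vy (i3_of (i2_r hv0 nz).symm h2) lz lv ly r2 r5
  exact h.rl_unique hy hv (h.symm _ _ vy) (i2_r hv0 ny).symm ly lv lv'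
    (h.rl_symm hv hy vy (i2_r hv0 ny) r6) r4

lemma gz_unique {e v z y : V} {v' v'' : V'} (he : e ∈ S) (he0 : e ≠ 0) (hv : v ∈ S) (hv0 : v ≠ 0)
    (g : Gz F F' S adj β e v v' z) (g' : Gz F F' S adj β e v v'' y) : v' = v'' := by
  obtain ⟨x, hx, h1, h2, h3, h4, h5⟩ := h.gen e v z y
  obtain ⟨w, gw⟩ := h.exists_gz he he0 hv hv0 hx h1 h2
    fun ⟨a, b, e⟩ => h5 a b 0 0 (by rw [e]; module)
  rw [h.gz_step he he0 hv hv0 g gw h3 (fun ⟨a, b, e⟩ => h5 a 0 b 0 (by rw [e]; module))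
      (fun ⟨a, b, e⟩ => h5 0 b a 0 (by rw [e]; module)),
    h.gz_step he he0 hv hv0 g' gw h4 (fun ⟨a, b, e⟩ => h5 a 0 0 b (by rw [e]; module))
      (fun ⟨a, b, e⟩ => h5 0 b 0 a (by rw [e]; module))]

lemma exists_lift : ∃ g : V → V', g 0 = 0 ∧ (∀ v ∈ S, v ≠ 0 → Lf F' β v (g v)) ∧
    ∀ v ∈ S, ∀ w ∈ S, adj v w → I2 F v w → Rl F' β v (g v) w (g w) := by
  classical
  obtain ⟨e, he, -, -, he1⟩ := h.toSp.gen2 0 0
  have he0 : e ≠ 0 := fun e0 => he1 ⟨0, 0, by simp [e0]⟩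
  have ex : ∀ v, v ∈ S ∧ v ≠ 0 → ∃ v' z, Gz F F' S adj β e v v' z := fun v hv => by
    obtain ⟨z, hz, h1, h2, h3⟩ := h.toSp.gen2 e v
    obtain ⟨v', g⟩ := h.exists_gz he he0 hv.1 hv.2 hz h1 h2 h3
    exact ⟨v', z, g⟩
  let g : V → V' := fun v => if hv : v ∈ S ∧ v ≠ 0 then (ex v hv).choose else 0
  have hg : ∀ v ∈ S, v ≠ 0 → ∃ z, Gz F F' S adj β e v (g v) z := fun v hv hv0 => by
    have : g v = (ex v ⟨hv, hv0⟩).choose := dif_pos ⟨hv, hv0⟩
    rw [this]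
    exact (ex v ⟨hv, hv0⟩).choose_spec
  refine ⟨g, dif_neg (by simp), fun v hv hv0 => (hg v hv hv0).choose_spec.2.2.2.2.1,
    fun v hv w hw hvw hi => ?_⟩
  obtain ⟨x, hx, h1, h2, h3, -, h5⟩ := h.gen e v w w
  obtain ⟨v', gv⟩ := h.exists_gz he he0 hv hi.ne_left hx h1 h2
    fun ⟨a, b, e⟩ => h5 a b 0 0 (by rw [e]; module)
  obtain ⟨w', gw⟩ := h.exists_gz he he0 hw hi.ne_right hx h1 h3
    fun ⟨a, b, e⟩ => h5 a 0 b 0 (by rw [e]; module)
  rw [h.gz_unique he he0 hv hi.ne_left (hg v hv hi.ne_left).choose_spec gv,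
    h.gz_unique he he0 hw hi.ne_right (hg w hw hi.ne_right).choose_spec gw]
  obtain ⟨-, -, -, n1, lv, x', lx, r1, r2⟩ := gv
  obtain ⟨-, -, -, -, lw, x'', lx', r3, r4⟩ := gw
  obtain rfl : x' = x'' := h.rl_unique he hx h1 (i2_l he0 n1) ⟨1, one_ne_zero, (one_smul _ _).symm⟩
    lx lx' r1 r3
  exact h.tri hx hv hw (h.symm _ _ h2) (h.symm _ _ h3) hvw
    (i3_of hi fun ⟨a, b, e⟩ => h5 0 a b 0 (by rw [e]; module)).rot lx lv lw r2 r4

lemma exists_add : ∃ g : V → V', (∀ v ∈ S, v ≠ 0 → Lf F' β v (g v)) ∧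
    ∀ v ∈ S, ∀ w ∈ S, adj v w → g (v + w) = g v + g w := by
  obtain ⟨g, g0, gl, gr⟩ := h.exists_lift
  have k1 : ∀ v ∈ S, ∀ w ∈ S, adj v w → I2 F v w → g (v - w) = g v - g w := by
    intro v hv w hw hvw hi
    obtain ⟨z, hz, h1, h2, h3⟩ := h.toSp.gen2 v w
    have i3 := i3_of hi h3
    have hs := h.toSp.sub hv hw hvw
    have hsz : adj (v - w) z := h.symm _ _ (h.toSp.adj_sub (h.symm _ _ h1) (h.symm _ _ h2))
    have i2 : I2 F (v - w) z := fun a b e =>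
      have := i3 a (-a) b (by rw [← e]; module)
      ⟨this.1, this.2.2⟩
    have j3 := h.lf_i3 hv hw hz hvw i3 (gl v hv hi.ne_left) (gl w hw hi.ne_right)
      (gl z hz i2.ne_right)
    obtain ⟨c, -, hc⟩ := gl _ hs hi.sub_ne
    obtain ⟨a, ha⟩ := gr v hv w hw hvw hi
    obtain ⟨b, hb⟩ := gr _ hs z hz hsz i2
    have i2' : I2 F v z := i3.rot.i2.symm
    obtain ⟨d, hd⟩ := gr v hv z hz h1 i2'
    obtain ⟨r, s, e⟩ := h.in2_lf (h.toSp.sub hv hz h1) hw (h.toSp.sub hs hz hsz) i2'.sub_ne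
      hi.ne_right i2.sub_ne (h.symm _ _ (h.toSp.adj_sub (h.symm _ _ hvw) h2))
      ⟨1, -1, by module⟩ ⟨1, one_ne_zero, (one_smul _ _).symm⟩ (gl w hw hi.ne_right)
    have hb0 : b ≠ 0 := fun e0 =>
      h.ne _ (h.toSp.sub hs hz hsz) i2.sub_ne (by rw [hb, e0, zero_smul])
    have h4 := j3 (b * (c * a) - r * d) (-(b * (c * a)) - s) (r * d - b) (by
      rw [← sub_self (β (v - w - z))]
      nth_rewrite 1 [hb]
      rw [e, hd, hc, ha]
      module)
    have h5 : c * a = 1 := mul_left_cancel₀ hb0 (by linear_combination h4.1 + h4.2.2)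
    rw [hc, ha, smul_smul, h5, one_smul]
  have k2 : ∀ v ∈ S, ∀ w ∈ S, adj v w → (v = 0 ∨ I2 F v w) → g (v + w) = g v + g w := by
    rintro v hv w hw hvw (rfl | hi)
    · simp [g0]
    have := k1 _ (h.add v hv w hw hvw) v hv
      (h.symm _ _ (h.adj_add _ _ _ (h.self v hv) hvw)) (fun a b e => by
        have := hi (a + b) a (by rw [← e]; module)
        exact ⟨this.2, by simpa [this.2] using this.1⟩)
    rw [add_sub_cancel_left] at this
    rw [this, add_sub_cancel]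
  refine ⟨g, gl, fun v hv w hw hvw => ?_⟩
  obtain ⟨z, hz, h1, h2, h3⟩ := h.toSp.gen2 v w
  have k3 : ∀ x y : V, (∀ a b : F, ∃ c d : F, a • x + b • y = c • v + d • w + b • z) →
      x = 0 ∨ I2 F x y := fun x y hxy => by
    refine (em (x = 0)).imp_right fun hx => i2_of hx fun ⟨a, b, e⟩ => h3 ?_
    obtain ⟨c, d, e'⟩ := hxy (-(a + b)) 1
    refine ⟨-c, -d, ?_⟩
    have : z = (c • v + d • w + (1 : F) • z) - c • v - d • w := by module
    rw [this, ← e', e]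
    module
  have e1 := k2 _ (h.add v hv w hw hvw) z hz
    (h.symm _ _ (h.adj_add _ _ _ (h.symm _ _ h1) (h.symm _ _ h2)))
    (k3 _ _ fun a b => ⟨a, a, by module⟩)
  have e2 := k2 v hv _ (h.add w hw z hz h2) (h.adj_add _ _ _ hvw h1)
    (k3 _ _ fun a b => ⟨a, b, by module⟩)
  have e3 := k2 w hw z hz h2 (k3 _ _ fun a b => ⟨0, a, by module⟩)
  rw [add_assoc, e2, e3, ← add_assoc] at e1
  exact (add_right_cancel e1).symm

/-- **The fundamental theorem.** -/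
theorem main : ∃ (τ : F ≃+* F') (g : V → V'), (∀ v ∈ S, v ≠ 0 → ∃ c : F', c ≠ 0 ∧ g v = c • β v) ∧
    (∀ v ∈ S, ∀ w ∈ S, adj v w → g (v + w) = g v + g w) ∧
    ∀ (c : F), ∀ v ∈ S, g (c • v) = τ c • g v := by
  obtain ⟨g, gl, ga⟩ := h.exists_add
  have g0 : g 0 = 0 := by
    have := ga 0 h.toSp.zero_mem 0 h.toSp.zero_mem (h.self 0 h.toSp.zero_mem)
    rw [add_zero] at this
    exact left_eq_add.1 this
  have k1 : ∀ v ∈ S, ∀ c : F, ∃ d : F', g (c • v) = d • g v := fun v hv c => by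
    by_cases h0 : c • v = 0
    · exact ⟨0, by rw [h0, g0, zero_smul]⟩
    have hv0 : v ≠ 0 := fun e => h0 (by simp [e])
    obtain ⟨a, b, e⟩ := h.in2_lf hv hv (h.smul c v hv) hv0 hv0 h0 (h.self v hv) ⟨c, 0, by module⟩
      (gl v hv hv0) (gl v hv hv0)
    obtain ⟨d, -, hd⟩ := gl _ (h.smul c v hv) h0
    exact ⟨d * (a + b), by rw [hd, e]; module⟩
  have k2 : ∀ v ∈ S, ∀ w ∈ S, adj v w → I2 F v w → ∀ (c : F) (d : F'), g (c • v) = d • g v →
      g (c • w) = d • g w := fun v hv w hw hvw hi c d hd => by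
    obtain ⟨a, ha⟩ := k1 w hw c
    obtain ⟨b, hb⟩ := k1 _ (h.add v hv w hw hvw) c
    rw [smul_add, ga _ (h.smul c v hv) _ (h.smul c w hw)
      (h.adj_smul _ _ _ (h.symm _ _ (h.adj_smul _ _ _ (h.symm _ _ hvw)))), ga v hv w hw hvw, hd,
      ha] at hb
    have := h.lf_i2 hv hw hi (gl v hv hi.ne_left) (gl w hw hi.ne_right) (d - b) (a - b) (by
      rw [← sub_self (b • (g v + g w))]
      nth_rewrite 1 [← hb]
      module)
    rw [ha, sub_eq_zero.1 this.1, sub_eq_zero.1 this.2]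
  obtain ⟨e, he, -, -, he1⟩ := h.toSp.gen2 0 0
  have he0 : e ≠ 0 := fun e0 => he1 ⟨0, 0, by simp [e0]⟩
  choose t ht using k1 e he
  have k3 : ∀ (c : F), ∀ v ∈ S, g (c • v) = t c • g v := fun c v hv => by
    by_cases hv0 : v = 0
    · simp [hv0, g0]
    obtain ⟨z, hz, h1, h2, h3⟩ := h.toSp.gen2 e v
    exact k2 z hz v hv (h.symm _ _ h2) (i2_r hv0 h3).symm c _
      (k2 e he z hz h1 (i2_l he0 h3) c _ (ht c))
  have ge : g e ≠ 0 := by
    obtain ⟨c, hc, e1⟩ := gl e he he0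
    rw [e1]
    exact smul_ne_zero hc (h.ne e he he0)
  have inj : ∀ a b : F', a • g e = b • g e → a = b := fun a b e1 => smul_left_injective F' ge e1
  let τ : F →+* F' :=
    { toFun := t
      map_one' := inj _ _ (by rw [← ht, one_smul, one_smul])
      map_mul' := fun a b => inj _ _ (by
        rw [← ht, mul_smul, k3 a _ (h.smul b e he), ht, mul_smul])
      map_zero' := inj _ _ (by rw [← ht, zero_smul, zero_smul, g0])
      map_add' := fun a b => inj _ _ (by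
        rw [← ht, add_smul, ga _ (h.smul a e he) _ (h.smul b e he)
          (h.adj_smul _ _ _ (h.symm _ _ (h.adj_smul _ _ _ (h.self e he)))), ht, ht, add_smul]) }
  have hτ : ∀ c, τ c = t c := fun c => rfl
  refine ⟨RingEquiv.ofBijective τ ⟨τ.injective, fun c' => ?_⟩, g, gl, ga, k3⟩
  obtain ⟨z, hz, h1, -, h3⟩ := h.toSp.gen2 e e
  have i2 := i2_l he0 h3
  have j2 := h.lf_i2 he hz i2 (gl e he he0) (gl z hz i2.ne_right)
  obtain ⟨a, -, ha⟩ := gl e he he0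
  obtain ⟨b, -, hb⟩ := gl z hz i2.ne_right
  obtain ⟨w, hw, hw0, c, hc⟩ := h.onto e he z hz he0 i2.ne_right h1 _ (j2.comb_ne one_ne_zero c')
    ⟨a, c' * b, by rw [ha, hb]; module⟩
  obtain ⟨r, s, e1⟩ := (h.line e he z hz w hw he0 i2.ne_right hw0 h1).2
    ⟨c * a, c * (c' * b), by rw [hc, ha, hb]; module⟩
  obtain ⟨d, hd0, hd⟩ := gl w hw hw0
  have e2 : g w = t r • g e + t s • g z := by
    rw [e1, ga _ (h.smul r e he) _ (h.smul s z hz)
      (h.adj_smul _ _ _ (h.symm _ _ (h.adj_smul _ _ _ (h.symm _ _ h1)))), ht, k3 s z hz]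
  have h4 := j2 (t r - d * c) (t s - d * c * c') (by
    rw [← sub_self (g w)]
    nth_rewrite 1 [e2]
    rw [hd, hc]
    module)
  have hc0 : c ≠ 0 := fun e0 => h.ne w hw hw0 (by rw [hc, e0, zero_smul])
  refine ⟨s / r, ?_⟩
  rw [map_div₀, hτ, hτ, sub_eq_zero.1 h4.1, sub_eq_zero.1 h4.2]
  field_simp

end Col

end Vale.Agent.P183AU
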