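import Vale.Agent.P183CF.CB2
import Vale.Agent.P183NK.CSI

/-!
An additive bijection that normalises `Ω` modulo scalars is a semilinear similitude.
-/

set_option autoImplicit false
set_option linter.all false

namespace Vale.Agent.P183AU

open Subgroup Vale.Agent.P183NK Vale.Agent.P183NK.FS
open scoped commutatorElement

section
variable {p : ℕ} [Fact p.Prime] {V : Type} [AddCommGroup V] [Module (ZMod p) V] [Finite V]
  {S : FS p V} {Z : S.NR}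

lemma exists_sq (hZ : S.Scal Z 1) (h2 : (2 : ZMod p) = 0) {μ : S.E} (hμ : μ ∈ Z) (hs : S.st μ = μ) :
    ∃ y ∈ Z, S.st y = y ∧ y * y = μ := by
  let A := {x : S.E // x ∈ Z ∧ S.st x = x}
  let f : A → A := fun x => ⟨x.1 * x.1, Z.mul_mem x.2.1 x.2.1, by simp [x.2.2]⟩
  have hf : Function.Injective f := fun x y e => by
    have e1 : x.1 * x.1 = y.1 * y.1 := congrArg Subtype.val e
    refine Subtype.ext (sub_eq_zero.1 (hZ.red _ (Z.sub_mem x.2.1 y.2.1) ?_))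
    have : (x.1 - y.1) * (x.1 - y.1) = (2 : ZMod p) • (y.1 * y.1 - x.1 * y.1) := by
      rw [two_smul, mul_sub, sub_mul, sub_mul, e1, hZ.comm _ y.2.1 _ x.2.1]
      abel
    rw [this, h2, zero_smul]
  obtain ⟨y, hy⟩ := Finite.surjective_of_injective hf ⟨μ, hμ, hs⟩
  exact ⟨y.1, y.2.1, y.2.2, congrArg Subtype.val hy⟩

/-- a unit that normalises a suitable group of isometries is a similitude -/
lemma mem_gam_of (hZ : S.Scal Z 1) {X : Subgroup S.Eˣ} (hX : X ≤ S.iso (S.cent Z 1))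
    (hC : ∀ x : S.E, (∀ ω ∈ X, ω.1 * x = x * ω.1) → x ∈ Z)
    (hfix : ∀ v, (∀ ω ∈ X, ω.1 v = v) → v = 0) {γ : S.Eˣ} (h1 : ∀ ω ∈ X, γ * ω * γ⁻¹ ∈ X)
    (h2 : ∀ ω ∈ X, γ⁻¹ * ω * γ ∈ X) : γ ∈ S.gam Z := by
  have hμ : S.st γ.1 * γ.1 ∈ Z := hC _ fun ω hω => by
    have e1 := iso_st (hX (h1 _ (X.inv_mem hω)))
    have e2 := iso_st (hX (X.inv_mem hω))
    simp only [Units.val_mul, st_mul, mul_inv_rev, inv_inv] at e1 e2
    rw [e2] at e1
    calc ω.1 * (S.st γ.1 * γ.1)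
        = S.st γ.1 * (S.st γ⁻¹.1 * (ω.1 * S.st γ.1)) * γ.1 := by
          rw [← mul_assoc (S.st γ.1), st_mul_st_inv, one_mul, mul_assoc]
      _ = _ := by rw [e1]; simp [mul_assoc]
  refine subset_closure ⟨fun z hz => hC _ fun ω hω => ?_, hμ, ?_⟩
  · have := iso_cent_comm (hX (h2 ω hω)) hz
    simp only [Units.val_mul] at this
    calc ω.1 * (γ.1 * z * γ⁻¹.1) = γ.1 * (γ⁻¹.1 * ω.1 * γ.1 * z) * γ⁻¹.1 := by simp [mul_assoc]
      _ = _ := by rw [this]; simp [mul_assoc]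
  by_cases ho : S.orth
  swap
  · have : (fun v => S.q (γ.1 v)) = 0 := funext fun v => (S.alt ho _).1
    rw [this]
    exact zero_mem _
  have hs : S.st (S.st γ.1 * γ.1) = S.st γ.1 * γ.1 := by simp
  have k : ∀ z ∈ Z, (∀ x y, S.q (z (x + y)) = S.q (z x) + S.q (z y) + S.β x ((S.st z * z) y)) ∧
      ∀ ω ∈ X, ∀ v, S.q (z (ω.1 v)) = S.q (z v) := fun z hz =>
    ⟨fun x y => by rw [map_add, S.q_add ho, β_mu], fun ω hω v => by
      rw [← Module.End.mul_apply, ← iso_cent_comm (hX hω) hz, Module.End.mul_apply, iso_q (hX hω)]⟩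
  have key : ∀ f : V → ZMod p, (∀ x y, f (x + y) = f x + f y + S.β x ((S.st γ.1 * γ.1) y)) →
      (∀ ω ∈ X, ∀ v, f (ω.1 v) = f v) → (fun v => S.q (γ.1 v)) = f := fun f f1 f2 =>
    q_unique (S := S) (X := {x | ∃ ω ∈ X, x = ω.1})
      (by rintro _ ⟨ω, hω, rfl⟩; exact iso_uni (hX hω))
      (fun v hv => hfix v fun ω hω => hv _ ⟨ω, hω, rfl⟩)
      (fun x y => by rw [map_add, S.q_add ho, β_mu]) f1 (by
        rintro _ ⟨ω, hω, rfl⟩ v
        simpa using iso_q (hX (h1 ω hω)) (γ.1 v)) (by rintro _ ⟨ω, hω, rfl⟩; exact f2 ω hω)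
  by_cases h2 : (2 : ZMod p) = 0
  · obtain ⟨y, hy, y1, y2⟩ := exists_sq hZ h2 hμ hs
    rw [key (fun v => S.q (y v)) (fun a b => by rw [(k y hy).1, y1, y2]) (k y hy).2]
    exact Submodule.subset_span ⟨y, hy, rfl⟩
  · obtain ⟨μ, hμ'⟩ : ∃ μ, μ = S.st γ.1 * γ.1 := ⟨_, rfl⟩
    rw [← hμ'] at hμ hs key
    have a1 := k _ (Z.add_mem hμ hZ.mem)
    have a2 := k _ (Z.sub_mem hμ hZ.mem)
    have h4 : (4 : ZMod p) ≠ 0 := by
      have := mul_ne_zero h2 h2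
      rwa [show (2 : ZMod p) * 2 = 4 by norm_num] at this
    rw [key ((4 : ZMod p)⁻¹ • ((fun v => S.q ((μ + 1) v)) - fun v => S.q ((μ - 1) v)))
      (fun a b => by
        simp only [Pi.smul_apply, Pi.sub_apply, a1.1, a2.1, smul_eq_mul]
        simp only [st_add, st_sub, hs, st_one, Module.End.mul_apply, LinearMap.add_apply,
          LinearMap.sub_apply, Module.End.one_apply, map_add, map_sub]
        field_simp
        ring)
      (fun ω hω v => by simp only [Pi.smul_apply, Pi.sub_apply, a1.2 ω hω, a2.2 ω hω])]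
    exact Submodule.smul_mem _ _ (sub_mem (Submodule.subset_span ⟨_, Z.add_mem hμ hZ.mem, rfl⟩)
      (Submodule.subset_span ⟨_, Z.sub_mem hμ hZ.mem, rfl⟩))

end

variable {G : Type} [Group G] {T : Subgroup G} (M : Model T)

/-- the graph of the automorphism induced by `g` -/
def Gr (g : G) : Subgroup (M.Ω × M.Ω) where
  carrier := {x | M.θ x.2 = g * M.θ x.1 * g⁻¹}
  one_mem' := by simp
  mul_mem' := fun {a b} ha hb => by
    show M.θ (a.2 * b.2) = g * M.θ (a.1 * b.1) * g⁻¹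
    rw [map_mul, map_mul, show M.θ a.2 = _ from ha, show M.θ b.2 = _ from hb]
    group
  inv_mem' := fun {a} ha => by
    show M.θ a.2⁻¹ = g * M.θ a.1⁻¹ * g⁻¹
    rw [map_inv, map_inv, show M.θ a.2 = _ from ha]
    group

instance : Finite M.Ω := by
  have : Finite M.S.Eˣ := Finite.of_injective _ Units.val_injective
  infer_instance

variable {M}

lemma Gr_fst {g : G} (hg : ∀ t ∈ T, g * t * g⁻¹ ∈ T) (ω : M.Ω) : ∃ ω', (ω, ω') ∈ Gr M g := by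
  have h1 := hg _ (M.range.le ⟨ω, rfl⟩)
  obtain ⟨ω', e⟩ := M.range.ge h1
  exact ⟨ω', e⟩

lemma Gr_snd [Finite G] {g : G} (hg : ∀ t ∈ T, g * t * g⁻¹ ∈ T) (ω' : M.Ω) :
    ∃ ω, (ω, ω') ∈ Gr M g := by
  have hinj : Function.Injective fun t : T => (⟨g * t * g⁻¹, hg t t.2⟩ : T) := fun a b e => by
    simpa using congrArg Subtype.val e
  obtain ⟨t, ht⟩ := Finite.surjective_of_injective hinj ⟨_, M.range.le ⟨ω', rfl⟩⟩
  obtain ⟨ω, e⟩ := M.range.ge t.2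
  exact ⟨ω, by show _ = g * M.θ ω * g⁻¹; rw [e]; exact (congrArg Subtype.val ht).symm⟩

lemma Gr_scal {g : G} {x : M.Ω × M.Ω} (hx : x ∈ Gr M g) : x.1.1.1 ∈ M.Z ↔ x.2.1.1 ∈ M.Z := by
  rw [← M.ker, ← M.ker, show M.θ x.2 = _ from hx]
  simp

/-- `Lifts` from the projective statement. -/
theorem lifts_of [Finite G] {P : Subgroup M.S.Eˣ} (hP : P ≤ M.Ω) (hp : P ≤ ⁅P, P⁆)
    (hC : ∀ x : M.S.E, (∀ ω ∈ P, ω.1 * x = x * ω.1) → x ∈ M.Z)
    (hfix : ∀ v, (∀ ω ∈ P, ω.1 v = v) → v = 0)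
    (H : ∀ g : G, (∀ t ∈ T, g * t * g⁻¹ ∈ T) → ∃ γ : M.V ≃+ M.V, ∀ x ∈ Gr M g, ∃ z ∈ M.Z,
      ∀ v, γ (x.1.1.1 (γ.symm v)) = z (x.2.1.1 v)) : M.Lifts := by
  intro g hg
  obtain ⟨γ0, hγ⟩ := H g hg
  let γ : M.S.Eˣ :=
    ⟨γ0.toAddMonoidHom.toZModLinearMap M.p, γ0.symm.toAddMonoidHom.toZModLinearMap M.p,
      by ext v; simp, by ext v; simp⟩
  have k : ∀ x ∈ Gr M g, ∃ u : M.S.Eˣ, u.1 ∈ M.Z ∧ γ * x.1.1 * γ⁻¹ = u * x.2.1 := fun x hx => by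
    obtain ⟨z, hz, e⟩ := hγ x hx
    refine ⟨γ * x.1.1 * γ⁻¹ * x.2.1⁻¹, ?_, by group⟩
    convert hz using 1
    ext v
    exact (e _).trans (by simp)
  have hc : ∀ u : M.S.Eˣ, u.1 ∈ M.Z → ∀ ω ∈ M.Ω, u * ω = ω * u := fun u hu ω hω =>
    Units.ext (iso_cent_comm (om_le_iso _ hω) hu).symm
  have h1 : ∀ ω ∈ ⁅M.Ω, M.Ω⁆, γ * ω * γ⁻¹ ∈ ⁅M.Ω, M.Ω⁆ := fun ω hω => by
    refine (commutator_le.2 fun a ha b hb => ?_ :
      ⁅M.Ω, M.Ω⁆ ≤ ⁅M.Ω, M.Ω⁆.comap (MulAut.conj γ).toMonoidHom) hω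
    obtain ⟨a', ha'⟩ := Gr_fst hg ⟨a, ha⟩
    obtain ⟨b', hb'⟩ := Gr_fst hg ⟨b, hb⟩
    obtain ⟨u, hu, e1⟩ := k _ ha'
    obtain ⟨w, hw, e2⟩ := k _ hb'
    rw [mem_comap, map_commutatorElement]
    show ⁅γ * a * γ⁻¹, γ * b * γ⁻¹⁆ ∈ _
    rw [e1, e2]
    have huw : u * w = w * u := Units.ext (M.scal.comm _ hu _ hw)
    have : ⁅u * a'.1, w * b'.1⁆ = ⁅a'.1, b'.1⁆ := by
      have c1 : Commute u a'.1 := hc u hu _ a'.2
      have c2 : Commute u b'.1 := hc u hu _ b'.2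
      have c3 : Commute w a'.1 := hc w hw _ a'.2
      have c4 : Commute w b'.1 := hc w hw _ b'.2
      have c5 : Commute u w := huw
      rw [commutatorElement_def, commutatorElement_def, mul_inv_rev, mul_inv_rev]
      calc u * a'.1 * (w * b'.1) * (a'.1⁻¹ * u⁻¹) * (b'.1⁻¹ * w⁻¹)
          = u * (a'.1 * w * b'.1 * a'.1⁻¹) * u⁻¹ * (b'.1⁻¹ * w⁻¹) := by group
        _ = (a'.1 * w * b'.1 * a'.1⁻¹) * (b'.1⁻¹ * w⁻¹) := by
          rw [(((c1.mul_right c5).mul_right c2).mul_right c1.inv_right).eq, mul_inv_cancel_right]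
        _ = w * (a'.1 * b'.1 * a'.1⁻¹ * b'.1⁻¹) * w⁻¹ := by rw [← c3.eq]; group
        _ = _ := by
          rw [(((c3.mul_right c4).mul_right c3.inv_right).mul_right c4.inv_right).eq,
            mul_inv_cancel_right]
    rw [this]
    exact commutator_mem_commutator a'.2 b'.2
  have h2 : ∀ ω ∈ ⁅M.Ω, M.Ω⁆, γ⁻¹ * ω * γ ∈ ⁅M.Ω, M.Ω⁆ := fun ω hω => by
    have : Finite M.S.Eˣ := Finite.of_injective _ Units.val_injective
    have hinj : Function.Injective fun t : ↥⁅M.Ω, M.Ω⁆ =>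
        (⟨γ * t * γ⁻¹, h1 t t.2⟩ : ↥⁅M.Ω, M.Ω⁆) := fun a b e => by
      simpa using congrArg Subtype.val e
    obtain ⟨t, ht⟩ := Finite.surjective_of_injective hinj ⟨ω, hω⟩
    have e : ω = γ * t * γ⁻¹ := (congrArg Subtype.val ht).symm
    rw [e]
    simpa [mul_assoc] using t.2
  have h3 := hp.trans (commutator_mono hP hP)
  refine ⟨γ, mem_gam_of M.scal ((commutator_le_self _).trans (om_le_iso _))
    (fun x hx => hC x fun ω hω => hx ω (h3 hω)) (fun x hx => hfix x fun ω hω => hx ω (h3 hω)) h1 h2,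
    fun ω ω' e => ?_⟩
  obtain ⟨w, hw⟩ := Gr_fst hg ω
  obtain ⟨u, hu, e1⟩ := k _ hw
  have : M.θ (ω' * w⁻¹) = 1 := (M.ker _).2 (by
    have : (ω' * w⁻¹).1 = u := by
      show ω'.1 * w.1⁻¹ = u
      rw [e, e1, mul_inv_cancel_right]
    rw [this]
    exact hu)
  rw [map_mul, map_inv, mul_inv_eq_one] at this
  exact this.trans hw

end Vale.Agent.P183AU
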