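import Mathlib.GroupTheory.Sylow
import Mathlib.Algebra.CharP.Algebra
import Mathlib.Algebra.CharP.Lemmas
import Mathlib.Algebra.CharP.Reduced
import Mathlib.LinearAlgebra.FiniteDimensional.Lemmas
import Mathlib.FieldTheory.Finiteness
import Mathlib.Tactic.Group

/-!
Groups acting on a vector space over a finite field: scalars, stabilisers, `p`-groups modulo scalars.
-/

set_option autoImplicit false
set_option linter.all false

namespace Vale.Agent.P183AU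

open Module

section grp
variable {Γ : Type*} [Group Γ]

/-- `A` is a `p`-group modulo `Z` -/
def PZ (p : ℕ) (Z A : Subgroup Γ) : Prop := ∀ γ ∈ A, ∃ k : ℕ, γ ^ p ^ k ∈ Z

/-- `M` normalises `Q` -/
def Nz (M Q : Subgroup Γ) : Prop := ∀ m ∈ M, ∀ x ∈ Q, m * x * m⁻¹ ∈ Q

/-- double cosets -/
def DC (M : Subgroup Γ) (x y : Γ) : Prop := ∃ a ∈ M, ∃ b ∈ M, y = a * x * b

/-- at most three double cosets -/
def Rank3 (M : Subgroup Γ) : Prop :=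
  ∀ x y z : Γ, x ∉ M → y ∉ M → z ∉ M → DC M x y ∨ DC M x z ∨ DC M y z

/-- at most two double cosets -/
def Rank2 (M : Subgroup Γ) : Prop := ∀ x y : Γ, x ∉ M → y ∉ M → DC M x y

/-- `M` has a nontrivial normal `p`-group modulo `Z` -/
def Loc (p : ℕ) (Z M : Subgroup Γ) : Prop := ∃ Q ≤ M, PZ p Z Q ∧ ¬ Q ≤ Z ∧ Nz M Q

lemma Rank3.false {M : Subgroup Γ} (h : Rank3 M) {T : Type*} (I : Γ → T)
    (hI : ∀ a ∈ M, ∀ b ∈ M, ∀ x, I (a * x * b) = I x) {x y z : Γ} (h1 : I x ≠ I 1) (h2 : I y ≠ I 1)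
    (h3 : I z ≠ I 1) (h4 : I x ≠ I y) (h5 : I x ≠ I z) (h6 : I y ≠ I z) : False := by
  have k : ∀ x, I x ≠ I 1 → x ∉ M := fun x hx hm => hx (by simpa using hI x hm 1 M.one_mem 1)
  rcases h x y z (k x h1) (k y h2) (k z h3) with ⟨a, ha, b, hb, e⟩ | ⟨a, ha, b, hb, e⟩ |
    ⟨a, ha, b, hb, e⟩
  · exact h4 (by rw [e, hI a ha b hb])
  · exact h5 (by rw [e, hI a ha b hb])
  · exact h6 (by rw [e, hI a ha b hb])

lemma Rank2.false {M : Subgroup Γ} (h : Rank2 M) {T : Type*} (I : Γ → T)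
    (hI : ∀ a ∈ M, ∀ b ∈ M, ∀ x, I (a * x * b) = I x) {x y : Γ} (h1 : I x ≠ I 1) (h2 : I y ≠ I 1)
    (h4 : I x ≠ I y) : False := by
  have k : ∀ x, I x ≠ I 1 → x ∉ M := fun x hx hm => hx (by simpa using hI x hm 1 M.one_mem 1)
  obtain ⟨a, ha, b, hb, e⟩ := h x y (k x h1) (k y h2)
  exact h4 (by rw [e, hI a ha b hb])

variable [Finite Γ] {p : ℕ} [hp : Fact p.Prime]

lemma PZ.exists_pgroup {Z A : Subgroup Γ} [Z.Normal] (h : PZ p Z A) :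
    ∃ P ≤ A, IsPGroup p P ∧ ∀ a ∈ A, ∃ x ∈ P, x⁻¹ * a ∈ Z := by
  let f : A →* Γ ⧸ Z := (QuotientGroup.mk' Z).comp A.subtype
  have hf := f.rangeRestrict_surjective
  have h1 : IsPGroup p (⊤ : Subgroup f.range) := by
    rintro ⟨⟨_, a, rfl⟩, -⟩
    obtain ⟨k, hk⟩ := h a a.2
    refine ⟨k, Subtype.ext (Subtype.ext ?_)⟩
    show (f a) ^ p ^ k = 1
    rw [← map_pow]
    exact (QuotientGroup.eq_one_iff _).2 hk
  obtain ⟨P⟩ : Nonempty (Sylow p A) := inferInstance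
  have h2 := (P.mapSurjective hf).is_maximal' h1 le_top
  refine ⟨P.1.map A.subtype, Subgroup.map_subtype_le _, P.isPGroup'.map _, fun a ha => ?_⟩
  have h3 : f.rangeRestrict ⟨a, ha⟩ ∈ (P.mapSurjective hf).1 := by rw [← h2]; trivial
  obtain ⟨x, hx, e⟩ := h3
  exact ⟨x, ⟨x, hx, rfl⟩, QuotientGroup.eq.1 (congrArg Subtype.val e)⟩

lemma exists_conj_le (P : Sylow p Γ) {A : Subgroup Γ} (h : IsPGroup p A) :
    ∃ g : Γ, ∀ a ∈ A, g * a * g⁻¹ ∈ P.1 := by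
  obtain ⟨Q, hQ⟩ := h.exists_le_sylow
  obtain ⟨g, rfl⟩ := MulAction.exists_smul_eq Γ Q P
  refine ⟨g, fun a ha => ?_⟩
  show g * a * g⁻¹ ∈ ((g • Q : Sylow p Γ) : Subgroup Γ)
  rw [Sylow.coe_subgroup_smul]
  exact Subgroup.smul_mem_pointwise_smul a (MulAut.conj g) _ (hQ ha)

end grp

section rep
variable {Γ F V : Type*} [Group Γ] [Field F] [AddCommGroup V] [Module F V] (ρ : Γ →* (V ≃ₗ[F] V))

lemma rep_mul (a b : Γ) (v : V) : ρ (a * b) v = ρ a (ρ b v) := by rw [map_mul]; rfl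

@[simp] lemma rep_inv (a : Γ) (v : V) : ρ a⁻¹ (ρ a v) = v := by
  rw [← rep_mul, inv_mul_cancel, map_one]; rfl

@[simp] lemma rep_inv' (a : Γ) (v : V) : ρ a (ρ a⁻¹ v) = v := by
  rw [← rep_mul, mul_inv_cancel, map_one]; rfl

lemma rep_ne (a : Γ) {v : V} (h : v ≠ 0) : ρ a v ≠ 0 := (ρ a).map_ne_zero_iff.2 h

lemma eig_inv {a : Γ} {v : V} {c : F} (h : ρ a v = c • v) : ρ a⁻¹ v = c⁻¹ • v := by
  by_cases hc : c = 0
  · rw [hc, zero_smul, LinearEquiv.map_eq_zero_iff] at h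
    simp [h]
  · have := congrArg (ρ a⁻¹) h
    rw [rep_inv, map_smul] at this
    nth_rewrite 2 [this]
    rw [smul_smul, inv_mul_cancel₀ hc, one_smul]

lemma eig_pow {a : Γ} {v : V} {c : F} (h : ρ a v = c • v) (n : ℕ) : ρ (a ^ n) v = c ^ n • v := by
  induction n with
  | zero => simp
  | succ n ih => rw [pow_succ, rep_mul, h, map_smul, ih, smul_smul, pow_succ, mul_comm]

/-- the elements that act as scalars -/
def Zs : Subgroup Γ where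
  carrier := {γ | ∃ c : F, ∀ v, ρ γ v = c • v}
  one_mem' := ⟨1, by simp⟩
  mul_mem' := fun ⟨c, hc⟩ ⟨d, hd⟩ => ⟨c * d, fun v => by rw [rep_mul, hd, hc, smul_smul]⟩
  inv_mem' := fun ⟨c, hc⟩ => ⟨c⁻¹, fun v => eig_inv ρ (hc v)⟩

instance : (Zs ρ).Normal := ⟨fun a ⟨c, hc⟩ g => ⟨c, fun v => by
  rw [rep_mul, rep_mul, hc, map_smul, rep_inv']⟩⟩

/-- the stabiliser of a point -/
def St (v : V) : Subgroup Γ where
  carrier := {γ | ∃ c : F, ρ γ v = c • v}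
  one_mem' := ⟨1, by simp⟩
  mul_mem' := fun ⟨c, hc⟩ ⟨d, hd⟩ => ⟨d * c, by rw [rep_mul, hd, map_smul, hc, smul_smul]⟩
  inv_mem' := fun ⟨c, hc⟩ => ⟨c⁻¹, eig_inv ρ hc⟩

lemma Zs_le_St (v : V) : Zs ρ ≤ St ρ v := fun _ ⟨c, hc⟩ => ⟨c, hc v⟩

lemma mem_St_rep (g γ : Γ) (v : V) : γ ∈ St ρ (ρ g v) ↔ g⁻¹ * γ * g ∈ St ρ v := by
  refine exists_congr fun c => ?_
  rw [rep_mul, rep_mul, ← (ρ g).injective.eq_iff (b := c • v), rep_inv', map_smul]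

lemma St_smul {c : F} (hc : c ≠ 0) (v : V) : St ρ (c • v) = St ρ v := by
  ext γ
  refine exists_congr fun d => ?_
  rw [map_smul, smul_comm, (smul_right_injective V hc).eq_iff]

/-- `M` stabilises the subspace `W` -/
def Inv (M : Subgroup Γ) (W : Submodule F V) : Prop := ∀ γ ∈ M, ∀ v ∈ W, ρ γ v ∈ W

lemma Inv.map {ρ : Γ →* (V ≃ₗ[F] V)} {M : Subgroup Γ} {W : Submodule F V} (h : Inv ρ M W) {γ : Γ}
    (hγ : γ ∈ M) : W.map (ρ γ : V →ₗ[F] V) = W := by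
  refine le_antisymm ?_ fun v hv => ⟨ρ γ⁻¹ v, h _ (M.inv_mem hγ) v hv, by simp⟩
  rintro _ ⟨v, hv, rfl⟩
  exact h γ hγ v hv

lemma map_rep_mul (a b : Γ) (W : Submodule F V) :
    W.map (ρ (a * b) : V →ₗ[F] V) = (W.map (ρ b : V →ₗ[F] V)).map (ρ a : V →ₗ[F] V) := by
  rw [← Submodule.map_comp, map_mul]
  rfl

lemma finrank_inf_dc {M : Subgroup Γ} {W : Submodule F V} (h : Inv ρ M W) {a b : Γ} (ha : a ∈ M)
    (hb : b ∈ M) (x : Γ) : finrank F (W ⊓ W.map (ρ (a * x * b) : V →ₗ[F] V) : Submodule F V) =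
      finrank F (W ⊓ W.map (ρ x : V →ₗ[F] V) : Submodule F V) := by
  have : W ⊓ W.map (ρ (a * x * b) : V →ₗ[F] V) =
      (W ⊓ W.map (ρ x : V →ₗ[F] V)).map (ρ a : V →ₗ[F] V) := by
    rw [map_rep_mul, h.map hb, map_rep_mul, Submodule.map_inf _ (ρ a).injective, h.map ha]
  rw [this, LinearEquiv.finrank_map_eq]

variable {p : ℕ} [hp : Fact p.Prime] [CharP F p]

lemma eig_eq {γ : Γ} {k : ℕ} (h : γ ^ p ^ k ∈ Zs ρ) {v w : V} (hv : v ≠ 0) (hw : w ≠ 0) {c d : F}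
    (h1 : ρ γ v = c • v) (h2 : ρ γ w = d • w) : c = d := by
  obtain ⟨e, he⟩ := h
  have e1 := smul_left_injective F hv ((eig_pow ρ h1 _).symm.trans (he v))
  have e2 := smul_left_injective F hw ((eig_pow ρ h2 _).symm.trans (he w))
  exact iterateFrobenius_inj F p k (e1.trans e2.symm)

/-- the common eigenvectors of a `p`-group modulo scalars -/
def Fx {Q : Subgroup Γ} (h : PZ p (Zs ρ) Q) : Submodule F V where
  carrier := {v | Q ≤ St ρ v}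
  zero_mem' := fun _ _ => ⟨0, by simp⟩
  smul_mem' := fun c v hv γ hγ => let ⟨d, hd⟩ := hv hγ; ⟨d, by rw [map_smul, hd, smul_comm]⟩
  add_mem' := fun {v w} hv hw γ hγ => by
    obtain ⟨c, hc⟩ := hv hγ
    obtain ⟨d, hd⟩ := hw hγ
    obtain ⟨k, hk⟩ := h γ hγ
    by_cases v0 : v = 0
    · exact ⟨d, by simpa [v0] using hd⟩
    by_cases w0 : w = 0
    · exact ⟨c, by simpa [w0] using hc⟩
    exact ⟨c, by rw [map_add, hc, hd, smul_add, eig_eq ρ hk v0 w0 hc hd]⟩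

lemma mem_Fx {Q : Subgroup Γ} {h : PZ p (Zs ρ) Q} {v : V} : v ∈ Fx ρ h ↔ Q ≤ St ρ v := Iff.rfl

lemma Fx_ne_top {Q : Subgroup Γ} (h : PZ p (Zs ρ) Q) (hQ : ¬ Q ≤ Zs ρ) : Fx ρ h ≠ ⊤ := by
  refine fun e => hQ fun γ hγ => ?_
  have k : ∀ v, ∃ c : F, ρ γ v = c • v := fun v => (show v ∈ Fx ρ h by rw [e]; trivial) hγ
  by_cases h0 : ∃ v : V, v ≠ 0
  · obtain ⟨v, hv⟩ := h0
    obtain ⟨c, hc⟩ := k v
    obtain ⟨n, hn⟩ := h γ hγ
    refine ⟨c, fun w => ?_⟩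
    by_cases w0 : w = 0
    · simp [w0]
    obtain ⟨d, hd⟩ := k w
    rw [hd, eig_eq ρ hn hv w0 hc hd]
  · push Not at h0
    exact ⟨0, fun v => by simp [h0 v]⟩

lemma Fx_inv {M Q : Subgroup Γ} (h : PZ p (Zs ρ) Q) (hM : Nz M Q) : Inv ρ M (Fx ρ h) :=
  fun m hm v hv γ hγ => (mem_St_rep ρ m γ v).2 (hv (by simpa using hM _ (M.inv_mem hm) γ hγ))

lemma unip_pow {γ : Γ} (h : ∀ v, ((ρ γ : V →ₗ[F] V) - 1) (((ρ γ : V →ₗ[F] V) - 1)
    (((ρ γ : V →ₗ[F] V) - 1) v)) = 0) : γ ^ p ^ 2 ∈ Zs ρ := by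
  refine ⟨1, fun v => ?_⟩
  by_cases hv : v = 0
  · simp [hv]
  have : Nontrivial V := ⟨v, 0, hv⟩
  have : CharP (Module.End F V) p := charP_of_injective_algebraMap' F p
  have h1 : ((ρ γ : V →ₗ[F] V) - 1 : Module.End F V) ^ 3 = 0 := by
    ext w
    exact h w
  have h2 : ((ρ γ : V →ₗ[F] V) - 1 : Module.End F V) ^ p ^ 2 = 0 :=
    pow_eq_zero_of_le (by nlinarith [hp.out.two_le]) h1
  rw [sub_pow_char_pow_of_commute _ _ (Commute.one_right _), one_pow, sub_eq_zero] at h2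
  have h3 : ∀ n : ℕ, ∀ w, ρ (γ ^ n) w = ((ρ γ : V →ₗ[F] V) ^ n : Module.End F V) w := fun n => by
    induction n with
    | zero => simp
    | succ n ih => intro w; rw [pow_succ, rep_mul, ih, pow_succ]; rfl
  rw [h3, h2, one_smul]
  rfl

variable [Finite F] [FiniteDimensional F V]

lemma exists_fix {P : Subgroup Γ} (hP : IsPGroup p P) {W : Submodule F V} (hW : W ≠ ⊥)
    (h : Inv ρ P W) : ∃ w ∈ W, w ≠ 0 ∧ ∀ γ ∈ P, ρ γ w = w := by
  have : Finite W := Module.finite_of_finite F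
  letI : MulAction P W :=
    { smul := fun γ w => ⟨ρ γ w, h γ γ.2 w w.2⟩
      one_smul := fun w => Subtype.ext (by show ρ (1 : P) w = w; simp)
      mul_smul := fun a b w => Subtype.ext (rep_mul ρ _ _ _) }
  have h1 : p ∣ Nat.card W := by
    rw [Module.natCard_eq_pow_finrank (K := F)]
    have := Fintype.ofFinite F
    refine dvd_pow ?_ (by rwa [Ne, Submodule.finrank_eq_zero])
    rw [Nat.card_eq_fintype_card, ← CharP.cast_eq_zero_iff F p]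
    exact Nat.cast_card_eq_zero F
  obtain ⟨w, hw, hw0⟩ := hP.exists_fixed_point_of_prime_dvd_card_of_fixed_point W h1 (a := 0)
    fun γ => Subtype.ext (map_zero (ρ γ))
  exact ⟨w, w.2, fun e => hw0 (Subtype.ext e.symm), fun γ hγ => congrArg Subtype.val (hw ⟨γ, hγ⟩)⟩

variable [Finite Γ]

lemma exists_mem_Fx {Q : Subgroup Γ} (h : PZ p (Zs ρ) Q) {W : Submodule F V} (hW : W ≠ ⊥)
    (hi : Inv ρ Q W) : ∃ w ∈ W, w ≠ 0 ∧ w ∈ Fx ρ h := by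
  obtain ⟨P, h1, h2, h3⟩ := h.exists_pgroup
  obtain ⟨w, hw, w0, h4⟩ := exists_fix ρ h2 hW fun γ hγ => hi γ (h1 hγ)
  refine ⟨w, hw, w0, fun a ha => ?_⟩
  obtain ⟨x, hx, hz⟩ := h3 a ha
  have := mul_mem (show x ∈ St ρ w from ⟨1, by simp [h4 x hx]⟩) (Zs_le_St ρ w hz)
  simpa using this

/-- A Sylow subgroup fixes a point that lies in all its invariant subspaces. -/
lemma exists_base (P : Sylow p Γ) {Q : Subgroup Γ} (h : PZ p (Zs ρ) Q) {v : V}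
    (hv : ∀ w, Q ≤ St ρ w → ∃ c : F, w = c • v) : ∃ g : Γ, P.1 ≤ St ρ (ρ g v) ∧
      ∀ W : Submodule F V, W ≠ ⊥ → Inv ρ P.1 W → ρ g v ∈ W := by
  obtain ⟨P1, h1, h2, h3⟩ := h.exists_pgroup
  obtain ⟨g, hg⟩ := exists_conj_le P h2
  have k : ∀ W : Submodule F V, W ≠ ⊥ → Inv ρ P.1 W → ρ g v ∈ W ∧ P.1 ≤ St ρ (ρ g v) := by
    intro W hW hi
    obtain ⟨w, hw, w0, h4⟩ := exists_fix ρ P.isPGroup' hW hi
    obtain ⟨c, hc⟩ := hv (ρ g⁻¹ w) fun a ha => by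
      obtain ⟨x, hx, hz⟩ := h3 a ha
      have : x ∈ St ρ (ρ g⁻¹ w) := (mem_St_rep ρ _ _ _).2 ⟨1, by simpa using h4 _ (hg x hx)⟩
      simpa using mul_mem this (Zs_le_St ρ _ hz)
    have e : w = c • ρ g v := by rw [← map_smul, ← hc, rep_inv']
    have c0 : c ≠ 0 := fun e0 => w0 (by rw [e, e0, zero_smul])
    refine ⟨?_, fun x hx => ?_⟩
    · have := W.smul_mem c⁻¹ hw
      rwa [e, smul_smul, inv_mul_cancel₀ c0, one_smul] at this
    · rw [← St_smul ρ c0, ← e]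
      exact ⟨1, by simp [h4 x hx]⟩
  refine ⟨g, ?_, fun W hW hi => (k W hW hi).1⟩
  by_cases v0 : v = 0
  · exact fun x _ => ⟨0, by simp [v0]⟩
  · refine (k ⊤ (fun e => v0 ?_) fun _ _ _ _ => trivial).2
    exact (Submodule.mem_bot F).1 (by rw [← e]; trivial)

end rep

end Vale.Agent.P183AU
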