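import Vale.Agent.P183AU.LinIso

/-!
Projective isomorphisms of linear groups acting on the sum of a space and its dual.
-/

set_option autoImplicit false
set_option linter.all false

namespace Vale.Agent.P183AU

open Module Vale.Agent.P183CF

section dual
variable {Γ F F' V₁ V₂ V₁' V₂' : Type*} [Group Γ] [Field F] [Field F'] [AddCommGroup V₁]
  [AddCommGroup V₂] [AddCommGroup V₁'] [AddCommGroup V₂'] [Module F V₁] [Module F V₂]
  [Module F' V₁'] [Module F' V₂'] {ρ₁ : Γ →* (V₁ ≃ₗ[F] V₁)} {ρ₂ : Γ →* (V₂ ≃ₗ[F] V₂)}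
  {ρ₁' : Γ →* (V₁' ≃ₗ[F'] V₁')} {ρ₂' : Γ →* (V₂' ≃ₗ[F'] V₂')}
  {B : V₁ →ₗ[F] V₂ →ₗ[F] F} {B' : V₁' →ₗ[F'] V₂' →ₗ[F'] F'}

lemma Pair.ext (h : Pair ρ₁ ρ₂ B) {y y' : V₂} (e : ∀ x, B x y = B x y') : y = y' := by
  refine sub_eq_zero.1 (by_contra fun hn => ?_)
  obtain ⟨g, g1, -⟩ := exists_fun (F := F) (notMem_sp0 hn)
  obtain ⟨x, hx⟩ := h.right g
  rw [← hx, map_sub, e, sub_self] at g1
  exact zero_ne_one g1

lemma PIso.symm_smul {τ : F ≃+* F'} {G : V₁ ≃+ V₁'} (h : PIso ρ₁ ρ₁' τ G) (c : F') (v : V₁') :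
    G.symm (c • v) = τ.symm c • G.symm v := G.injective (by simp [h.smul])

/-- the adjoint inverse of a projective isomorphism -/
lemma PIso.dual {τ : F ≃+* F'} {G : V₁ ≃+ V₁'} (h : PIso ρ₁ ρ₁' τ G) (hB : Pair ρ₁ ρ₂ B)
    (hB' : Pair ρ₁' ρ₂' B') : ∃ G₂ : V₂ ≃+ V₂', PIso ρ₂ ρ₂' τ G₂ ∧
      ∀ x y, B' (G x) (G₂ y) = τ (B x y) := by
  have ex : ∀ y, ∃ y', ∀ x, B' (G x) y' = τ (B x y) := fun y => by
    obtain ⟨y', hy⟩ := hB'.left
      { toFun := fun x' => τ (B (G.symm x') y)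
        map_add' := fun a b => by simp
        map_smul' := fun c a => by simp [h.symm_smul] }
    exact ⟨y', fun x => by simp [hy]⟩
  choose g hg using ex
  have ext : ∀ y y' : V₂', (∀ x, B' (G x) y = B' (G x) y') → y = y' := fun y y' e =>
    hB'.ext fun x => by simpa using e (G.symm x)
  let G1 : V₂ →+ V₂' := AddMonoidHom.mk' g fun a b => ext _ _ fun x => by simp [hg]
  have hinj : Function.Injective G1 := fun a b e => hB.ext fun x => τ.injective (by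
    rw [← hg, ← hg, show g a = g b from e])
  have hsur : Function.Surjective G1 := fun y' => by
    obtain ⟨y, hy⟩ := hB.left
      { toFun := fun x => τ.symm (B' (G x) y')
        map_add' := fun a b => by simp
        map_smul' := fun c a => by simp [h.smul] }
    exact ⟨y, ext _ _ fun x => (hg y x).trans (by simp [hy])⟩
  refine ⟨AddEquiv.ofBijective G1 ⟨hinj, hsur⟩, ⟨fun c v => ext _ _ fun x => ?_, fun γ => ?_⟩,
    fun x y => hg y x⟩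
  · show B' (G x) (g (c • v)) = B' (G x) (τ c • g v)
    simp [hg]
  · obtain ⟨c, hc⟩ := h.comm γ⁻¹
    refine ⟨c, fun v => ext _ _ fun x => ?_⟩
    show B' (G x) (g (ρ₂ γ v)) = B' (G x) (c • ρ₂' γ (g v))
    rw [hg, ← rep_inv' ρ₁ γ x, hB.inv, ← hg, hc, rep_inv', map_smul, map_smul, ← hB'.inv γ,
      LinearMap.smul_apply, ← hB'.inv γ, rep_inv', hB'.inv]

end dual

variable {Γ F V : Type*} [Group Γ] [Field F] [AddCommGroup V] [Module F V]

/-- restriction of a representation to an invariant subspace -/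
def res (ρ : Γ →* (V ≃ₗ[F] V)) (W : Submodule F V) (h : ∀ γ, ∀ v ∈ W, ρ γ v ∈ W) :
    Γ →* (W ≃ₗ[F] W) where
  toFun γ := LinearEquiv.ofLinear ((ρ γ : V →ₗ[F] V).restrict (h γ))
    ((ρ γ⁻¹ : V →ₗ[F] V).restrict (h γ⁻¹)) (by ext x; simp) (by ext x; simp)
  map_one' := by ext x; simp
  map_mul' a b := by ext x; simp

lemma res_apply (ρ : Γ →* (V ≃ₗ[F] V)) (W : Submodule F V) (h : ∀ γ, ∀ v ∈ W, ρ γ v ∈ W) (γ : Γ)
    (v : W) : (res ρ W h γ v : V) = ρ γ v := rfl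

/-- A space with a bilinear form and two complementary subspaces in duality. -/
structure DP (b : V →ₗ[F] V →ₗ[F] F) (X Y : Submodule F V) : Prop where
  compl : IsCompl X Y
  left : ∀ f : Dual F V, ∃ y ∈ Y, ∀ x ∈ X, b x y = f x
  right : ∀ f : Dual F V, ∃ x ∈ X, ∀ y ∈ Y, b x y = f y
  dimX : 5 ≤ finrank F X
  dimY : 5 ≤ finrank F Y

/-- A representation of type `A`. -/
structure AR (b : V →ₗ[F] V →ₗ[F] F) (X Y : Submodule F V) (ρ : Γ →* (V ≃ₗ[F] V)) : Prop where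
  invX : ∀ γ, ∀ v ∈ X, ρ γ v ∈ X
  invY : ∀ γ, ∀ v ∈ Y, ρ γ v ∈ Y
  inv : ∀ γ, ∀ x ∈ X, ∀ y ∈ Y, b (ρ γ x) (ρ γ y) = b x y
  tv : ∀ u ∈ X, ∀ v ∈ Y, b u v = 0 → ∃ γ, ∀ x ∈ X, ρ γ x = x + b x v • u

variable {b : V →ₗ[F] V →ₗ[F] F} {X Y : Submodule F V} {ρ ρ' : Γ →* (V ≃ₗ[F] V)}

lemma exists_ext (W : Submodule F V) (f : Dual F W) : ∃ g : Dual F V, ∀ w : W, g w = f w := by
  obtain ⟨g, hg⟩ := f.exists_extend
  exact ⟨g, fun w => by rw [← hg]; rfl⟩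

lemma AR.pair (h : AR b X Y ρ) (d : DP b X Y) :
    Pair (res ρ X h.invX) (res ρ Y h.invY) (b.domRestrict₁₂ X Y) where
  left f := by
    obtain ⟨g, hg⟩ := exists_ext X f
    obtain ⟨y, hy, e⟩ := d.left g
    exact ⟨⟨y, hy⟩, fun x => (e x x.2).trans (hg x)⟩
  right f := by
    obtain ⟨g, hg⟩ := exists_ext Y f
    obtain ⟨x, hx, e⟩ := d.right g
    exact ⟨⟨x, hx⟩, fun y => (e y y.2).trans (hg y)⟩
  inv γ x y := h.inv γ x x.2 y y.2

lemma AR.lrX (h : AR b X Y ρ) (d : DP b X Y) : LR (res ρ X h.invX) where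
  tv u f e := by
    obtain ⟨y, hy⟩ := (h.pair d).left f
    obtain ⟨γ, hγ⟩ := h.tv u u.2 y y.2 ((hy u).trans e)
    exact ⟨γ, fun x => Subtype.ext (by rw [res_apply, hγ x x.2, ← hy]; rfl)⟩
  dim := d.dimX

lemma AR.lrY (h : AR b X Y ρ) (d : DP b X Y) : LR (res ρ Y h.invY) where
  tv v f e := by
    obtain ⟨u, hu⟩ := (h.pair d).right f
    obtain ⟨γ, hγ⟩ := h.tv u u.2 v v.2 ((hu v).trans e)
    refine ⟨γ⁻¹, fun y => (h.pair d).ext fun x => ?_⟩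
    rw [← (h.pair d).inv γ, rep_inv', ← hu]
    show b (ρ γ x) y = b x (y + b u y • v)
    rw [hγ x x.2]
    simp [mul_comm]
  dim := d.dimY

/-- **Isomorphisms of linear groups on the sum of the natural module and its dual.** -/
theorem levi_iso [Finite Γ] [Finite F] [FiniteDimensional F V] (p : ℕ) [Fact p.Prime] [CharP F p]
    (d : DP b X Y) (h : AR b X Y ρ) (h' : AR b X Y ρ')
    (hZ : ∀ γ, (∃ c : F, ∀ x ∈ X, ρ γ x = c • x) ↔ ∃ c : F, ∀ x ∈ X, ρ' γ x = c • x) :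
    ∃ G : V ≃+ V, ∀ γ, ∃ c c' : F, (∀ x ∈ X, G (ρ γ (G.symm x)) = c • ρ' γ x) ∧
      ∀ y ∈ Y, G (ρ γ (G.symm y)) = c' • ρ' γ y := by
  have hZ' : Zs (res ρ X h.invX) = Zs (res ρ' X h'.invX) := by
    ext γ
    have k : ∀ (ρ : Γ →* (V ≃ₗ[F] V)) (hi : ∀ γ, ∀ v ∈ X, ρ γ v ∈ X), γ ∈ Zs (res ρ X hi) ↔
        ∃ c : F, ∀ x ∈ X, ρ γ x = c • x := fun ρ hi => exists_congr fun c =>
      ⟨fun e x hx => congrArg Subtype.val (e ⟨x, hx⟩), fun e x => Subtype.ext (e x x.2)⟩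
    rw [k, k, hZ]
  let E := (Submodule.prodEquivOfIsCompl X Y d.compl).toAddEquiv
  have hE : ∀ (x : X) (y : Y), E (x, y) = x + y := fun x y => rfl
  have hρ : ∀ γ (x : X) (y : Y), E.symm (ρ γ (E (x, y))) =
      (res ρ X h.invX γ x, res ρ Y h.invY γ y) := fun γ x y => by
    rw [AddEquiv.symm_apply_eq, hE, hE, map_add]
    rfl
  have eX : ∀ x (hx : x ∈ X), E.symm x = (⟨x, hx⟩, 0) := fun x hx => by
    rw [AddEquiv.symm_apply_eq, hE]; simp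
  have eY : ∀ y (hy : y ∈ Y), E.symm y = (0, ⟨y, hy⟩) := fun y hy => by
    rw [AddEquiv.symm_apply_eq, hE]; simp
  rcases lin_iso p (h.lrX d) (h'.lrX d) (h'.lrY d) (h'.pair d) hZ' with ⟨τ, G, hG⟩ | ⟨τ, G, hG⟩
  · obtain ⟨G₂, hG₂, -⟩ := hG.dual (h.pair d) (h'.pair d)
    refine ⟨E.symm.trans ((G.prodCongr G₂).trans E), fun γ => ?_⟩
    obtain ⟨c, hc⟩ := hG.comm γ
    obtain ⟨c', hc'⟩ := hG₂.comm γ
    refine ⟨c, c', fun x hx => ?_, fun y hy => ?_⟩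
    · show E (G.prodCongr G₂ (E.symm (ρ γ (E ((G.prodCongr G₂).symm (E.symm x)))))) = _
      rw [eX x hx]
      show E (G.prodCongr G₂ (E.symm (ρ γ (E (G.symm ⟨x, hx⟩, G₂.symm 0))))) = _
      rw [hρ]
      show E (G _, G₂ _) = _
      rw [hc, hE]
      simp [res_apply]
    · show E (G.prodCongr G₂ (E.symm (ρ γ (E ((G.prodCongr G₂).symm (E.symm y)))))) = _
      rw [eY y hy]
      show E (G.prodCongr G₂ (E.symm (ρ γ (E (G.symm 0, G₂.symm ⟨y, hy⟩))))) = _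
      rw [hρ]
      show E (G _, G₂ _) = _
      rw [hc', hE]
      simp [res_apply]
  · obtain ⟨G₂, hG₂, -⟩ := hG.dual (h.pair d) (h'.pair d).flip
    refine ⟨E.symm.trans (((G.prodCongr G₂).trans AddEquiv.prodComm).trans E), fun γ => ?_⟩
    obtain ⟨c, hc⟩ := hG.comm γ
    obtain ⟨c', hc'⟩ := hG₂.comm γ
    refine ⟨c', c, fun x hx => ?_, fun y hy => ?_⟩
    · show E (G.prodCongr G₂ (E.symm (ρ γ (E ((G.prodCongr G₂).symm (E.symm x).swap))))).swap = _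
      rw [eX x hx]
      show E (G.prodCongr G₂ (E.symm (ρ γ (E (G.symm 0, G₂.symm ⟨x, hx⟩))))).swap = _
      rw [hρ]
      show E (G₂ _, G _) = _
      rw [hc', hE]
      simp [res_apply]
    · show E (G.prodCongr G₂ (E.symm (ρ γ (E ((G.prodCongr G₂).symm (E.symm y).swap))))).swap = _
      rw [eY y hy]
      show E (G.prodCongr G₂ (E.symm (ρ γ (E (G.symm ⟨y, hy⟩, G₂.symm 0))))).swap = _
      rw [hρ]
      show E (G₂ _, G _) = _
      rw [hc, hE]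
      simp [res_apply]

end Vale.Agent.P183AU
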