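import Vale.Agent.P183AU.Gam
import Vale.Agent.P183AU.FormIso
import Vale.Agent.P183AU.Levi
import Vale.Agent.P183CF.Pol
import Vale.Agent.P183WA.Main

/-!
Automorphisms of classical groups of large rank are induced by semilinear similitudes.
-/

set_option autoImplicit false
set_option linter.all false

namespace Vale.Agent.P183AU

open Subgroup Module Vale.Agent.P183NK Vale.Agent.P183NK.FS Vale.Agent.P183CF Vale.Agent.P183CF.Form
  Vale.Agent.P183WA

section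
variable {F V : Type} [Field F] [AddCommGroup V] [Module F V] [Finite F] [FiniteDimensional F V]
  {φ : Form F V} {X Y : Submodule F V}

lemma const_of {T : V →+ V} (hd : 2 ≤ finrank F X) (h : ∀ u ∈ X, ∃ c : F, T u = c • u) :
    ∃ c : F, ∀ u ∈ X, T u = c • u := by
  have k : ∀ u ∈ X, ∀ w ∈ X, ∀ c d : F, u ≠ 0 → w ∉ F ∙ u → T u = c • u → T w = d • w → c = d := by
    intro u hu w hw c d u0 hwu e1 e2
    obtain ⟨e, he⟩ := h _ (X.add_mem hu hw)
    rw [map_add, e1, e2] at he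
    have h1 : (d - e) • w = (e - c) • u := by linear_combination (norm := module) he
    have h2 : d = e := by
      by_contra hn
      exact hwu ((Submodule.smul_mem_iff _ (sub_ne_zero.2 hn)).1
        (h1 ▸ Submodule.smul_mem _ _ (Submodule.mem_span_singleton_self u)))
    rw [h2, sub_self, zero_smul] at h1
    rw [h2]
    exact (sub_eq_zero.1 ((smul_eq_zero.1 h1.symm).resolve_right u0)).symm
  have ex : ∀ u, ∃ z ∈ X, z ∉ F ∙ u := fun u => by
    by_contra hn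
    push Not at hn
    have := Submodule.finrank_mono (show X ≤ F ∙ u from hn)
    have := finrank_span1 (F := F) u
    omega
  obtain ⟨u, hu, u0⟩ := ex 0
  have u0 : u ≠ 0 := fun e => u0 (by simp [e])
  obtain ⟨c, hc⟩ := h u hu
  refine ⟨c, fun w hw => ?_⟩
  obtain ⟨d, hd⟩ := h w hw
  by_cases hwu : w ∈ F ∙ u
  · obtain ⟨z, hz, hzu⟩ := ex u
    obtain ⟨e, he⟩ := h z hz
    by_cases w0 : w = 0
    · simp [w0]
    rw [hd, k w hw z hz d e w0 (fun t => hzu (span1_le hwu t)) hd he, k u hu z hz c e u0 hzu hc he]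
  · rw [hd, k u hu w hw c d u0 hwu hc hd]

lemma pol_scalar (P : φ.Pol X Y) (hd : 3 ≤ finrank F X) (T : V →+ V)
    (hT : ∀ g ∈ φ.EL X Y, ∀ x, T (g x) = g (T x)) : ∃ c : F, ∀ u ∈ X, T u = c • u := by
  refine const_of (by omega) fun u hu => ?_
  have k : ∀ v ∈ Y, v ≠ 0 → φ.b u v = 0 → ∃ a c : F, T u = a • u + c • v := fun v hv v0 e => by
    obtain ⟨x, hx, e1⟩ := P.symm.exists_dual1 hv v0
    have r := P.rd hu hv (φ.b_symm_zero e)
    have := hT _ (tv_EL r hu hv) (φ.ε • x)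
    rw [P.tv_x r hu (X.smul_mem _ hx), tv_apply, map_add, add_sub_assoc, add_right_inj,
      show φ.b v (φ.ε • x) = 1 by simp [φ.herm x v, e1], one_smul, sub_eq_add_neg, ← neg_smul] at this
    exact ⟨_, _, this⟩
  have d1 := finrank_span1 (F := F) u
  have d0 := P.finrank_eq
  obtain ⟨v, hv, v0, e⟩ := Pol.exists_orth (φ := φ) Y (F ∙ u) ⊥ (by rw [finrank_bot]; omega)
  have d2 := finrank_span1 (F := F) v
  obtain ⟨w, hw, w0, e'⟩ := Pol.exists_orth (φ := φ) Y (F ∙ u) (F ∙ v) (by omega)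
  obtain ⟨a, c, h1⟩ := k v hv (by simpa using v0) (e u (Submodule.mem_span_singleton_self u))
  obtain ⟨a', c', h2⟩ := k w hw (fun t => w0 (t ▸ zero_mem _))
    (e' u (Submodule.mem_span_singleton_self u))
  have h3 : c' • w - c • v = (a - a') • u := by linear_combination (norm := module) h1 - h2
  have h4 := P.disj (h3 ▸ X.smul_mem _ hu) (Y.sub_mem (Y.smul_mem c' hw) (Y.smul_mem c hv))
  have h5 : c' = 0 := by
    by_contra hn
    exact w0 ((Submodule.smul_mem_iff _ hn).1 (sub_eq_zero.1 h4 ▸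
      Submodule.smul_mem _ _ (Submodule.mem_span_singleton_self v)))
  exact ⟨a', by rw [h2, h5, zero_smul, add_zero]⟩

lemma pol_fix (P : φ.Pol X Y) (hd : 3 ≤ finrank F X) {x : V} (h : ∀ g ∈ φ.EL X Y, g x = x) :
    x = 0 := by
  have k : ∀ {X Y : Submodule F V}, φ.Pol X Y → 3 ≤ finrank F X → (∀ g ∈ φ.EL X Y, g x = x) →
      ∀ v ∈ Y, φ.b v x = 0 := fun {X Y} P hd h v hv => by
    have d1 := finrank_span1 (F := F) v
    obtain ⟨u, hu, u0, e⟩ := Pol.exists_orth (φ := φ) X (F ∙ v) ⊥ (by rw [finrank_bot]; omega)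
    have r := P.rd hu hv (e v (Submodule.mem_span_singleton_self v))
    have := h _ (tv_EL r hu hv)
    rw [tv_apply, add_sub_assoc, add_eq_left, sub_eq_zero] at this
    exact (smul_eq_zero.1 (P.disj (X.smul_mem _ hu) (this ▸ Y.smul_mem _ hv))).resolve_right
      (by simpa using u0)
  refine φ.nondeg x fun v => φ.b_symm_zero ?_
  obtain ⟨a, ha, c, hc, rfl⟩ := P.decomp v
  simp [k P hd h c hc, k P.symm (by rwa [P.finrank_eq]) (by rwa [← EL_symm]) a ha]

lemma ew_fix (hd : 31 ≤ finrank F V) {x : V} (h : ∀ g ∈ φ.EW ⊤, g x = x) : x = 0 := by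
  refine eq_zero_of_sing φ hd fun u hu => φ.b_symm_zero ?_
  obtain ⟨v, hv, v0, e⟩ := ex0 φ hd [u] (by simp)
  have r : φ.RD u v 0 := ⟨hu, e u (by simp), by simpa using hv⟩
  have := h _ (rho_EW r trivial trivial)
  rw [rho_apply, add_sub_assoc, add_eq_left, sub_eq_zero] at this
  by_contra hn
  exact v0 ((Submodule.smul_mem_iff _ hn).1 (this ▸ Submodule.smul_mem _ _ (mem_sp (by simp))))

end

variable {G : Type} [Group G] [Finite G] {T : Subgroup G} {M : Model T} {F : Type} [Field F]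
  [Finite F] [Module F M.V] {φ : Form F M.V} {τ : F →+ ZMod M.p}

lemma lifts_fld (hK : M.S.Real M.Z φ τ) (hn : 30 < M.n) : M.Lifts := by
  have := M.scal.toLoc.nontrivial
  have := Real.fd (F := F) (V := M.V)
  have := hK.charP
  have hd : 31 ≤ finrank F M.V := by rw [hK.rank_iff.1 M.rank]; exact hn
  have hE : ∀ g ∈ φ.EW ⊤, M.S.upU F g ∈ M.Ω := fun g => hK.EW_le_om (by omega)
  refine lifts_of (P := (φ.EW ⊤).map (M.S.upU F)) (map_le_iff_le_comap.2 hE)
    (by rw [← map_commutator, EW_perfect φ.nd_top (by rw [finrank_top]; omega)])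
    (fun x hx => ?_) (fun v hv => ew_fix (φ := φ) hd fun g hg => hv _ ⟨g, hg, rfl⟩) fun g hg => ?_
  · obtain ⟨c, hc⟩ := scalar_of_comm φ.nd_top (by rw [finrank_top]; omega) x.toAddMonoidHom
      fun g hg v => (congrArg (fun f : M.S.E => f v) (hx _ ⟨g, hg, rfl⟩)).symm
    exact (hK.scal x).2 ⟨c, fun v => hc v trivial⟩
  let r := rep (F := F) M.Ω fun g hg => hK.mem_cent.1 (iso_mem (one_mem_cent _) (om_le_iso _ hg))
  have hr : ∀ ω, r ω ∈ φ.Isom := fun ω =>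
    (hK.upU_mem_iso.1 (by rw [upU_rep]; exact om_le_iso _ ω.2)).2
  obtain ⟨_, _, γ, -, hγ⟩ := form_iso (φ := φ) (φ' := φ)
    (ρ := r.comp ((MonoidHom.fst _ _).comp (Gr M g).subtype))
    (ρ' := r.comp ((MonoidHom.snd _ _).comp (Gr M g).subtype)) M.p
    ⟨fun _ => hr _, fun k hk => (Gr_fst hg ⟨_, hE k hk⟩).elim fun w hw => ⟨⟨_, hw⟩, rfl⟩, hd⟩
    ⟨fun _ => hr _, fun k hk => (Gr_snd hg ⟨_, hE k hk⟩).elim fun w hw => ⟨⟨_, hw⟩, rfl⟩, hd⟩
    (Subgroup.ext fun x => (hK.scal _).symm.trans ((Gr_scal x.2).trans (hK.scal _)))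
  refine ⟨γ, fun x hx => ?_⟩
  obtain ⟨c, hc⟩ := hγ ⟨x, hx⟩
  exact ⟨_, hK.sc_mem c, fun v => (hc _).trans (by rw [γ.apply_symm_apply]; rfl)⟩

lemma lifts_spl {η : M.S.E} (s : M.S.Spl M.Z 1 η) (hK : M.S.Real (M.S.sym M.Z) φ τ)
    (hn : 30 < M.n) : M.Lifts := by
  have hZ := M.scal
  have := hZ.toLoc.nontrivial
  have := Real.fd (F := F) (V := M.V)
  have := hK.charP
  have hP : P183WA.Pair M.S M.Z (M.S.sym M.Z) η := Or.inr ⟨s, rfl⟩
  have hd : 31 ≤ finrank F M.V := le_trans hn (hP.le_finrank hZ hK M.rank)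
  have hs : ∀ c, φ.σ c = c := hK.σ_eq_iff.2 fun z hz => hz.2.1
  have key : ∀ {η}, M.S.Spl M.Z 1 η → ∃ X : Submodule F M.V, φ.TS X ∧ ∀ v, v ∈ X ↔ η v = v := by
    intro η s
    have hc := hP.cent hZ s.mem
    have k : ∀ v, v ∈ LinearMap.range (dn η (hK.mem_cent.1 hc)) ↔ η v = v := fun v =>
      mem_range_idem (s.idem hZ)
    refine ⟨_, ⟨fun v hv => ?_, fun v hv w hw => ?_⟩, k⟩
    · rw [← (k v).1 hv]
      exact hK.sing.1 (sing_spl hZ (sym_le _) s v)
    · rw [← (k v).1 hv, ← (k w).1 hw, hK.adj hc, ← Module.End.mul_apply, s.mul' hZ]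
      simp
  obtain ⟨X, x1, x2⟩ := key s
  obtain ⟨Y, y1, y2⟩ := key (s.star hZ)
  have mx : ∀ v, η v ∈ X := fun v => (x2 _).2 (idem_app (s.idem hZ) v)
  have my : ∀ v, M.S.st η v ∈ Y := fun v => (y2 _).2 (idem_app ((s.star hZ).idem hZ) v)
  have ad : ∀ v, η v + M.S.st η v = v := fun v => congrArg (fun f : M.S.E => f v) s.add
  have P : φ.Pol X Y := ⟨x1, y1, eq_top_iff.2 fun v _ => ad v ▸ Submodule.add_mem_sup (mx v) (my v)⟩
  have d1 := P.two_mul
  have d2 := P.finrank_eq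
  have x3 : ∀ v ∈ X, M.S.st η v = 0 := fun v hv => by simpa [(x2 v).1 hv] using ad v
  have y3 : ∀ v ∈ Y, η v = 0 := fun v hv => by simpa [(y2 v).1 hv] using ad v
  have mz : ∀ c c' : F, M.S.sc F c * η + M.S.sc F c' * M.S.st η ∈ M.Z := fun c c' =>
    add_mem (mul_mem (hK.sc_mem c).1 s.mem) (mul_mem (hK.sc_mem c').1 (s.star hZ).mem)
  have mz' : ∀ (x : M.S.E) (c c' : F), (∀ v ∈ X, x v = c • v) → (∀ v ∈ Y, x v = c' • v) →
      x ∈ M.Z := fun x c c' h1 h2 => by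
    convert mz c c' using 1
    ext v
    conv_lhs => rw [← ad v, map_add, h1 _ (mx v), h2 _ (my v)]
    rfl
  have hE : ∀ g ∈ φ.EL X Y, M.S.upU F g ∈ M.Ω := fun g hg => by
    have : (φ.EL X Y).map (M.S.upU F) ≤ M.S.iso M.A := by
      rintro _ ⟨k, hk, rfl⟩
      have hk := P.EL_le_LV hk
      refine hK.upU_mem_iso.2 ⟨sub_mem (hP.mem_cent hZ (hK.up_mem _) (LinearMap.ext fun v => ?_))
        (one_mem_cent _), hk.1⟩
      show k (η v) = η (k v)
      conv_rhs => rw [← ad v, map_add, map_add, (x2 _).1 (LV.mx hk (mx v)), y3 _ (LV.my hk (my v)),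
        add_zero]
    refine commutator_mono this this ?_
    rw [← map_commutator, P.EL_perfect (by omega)]
    exact ⟨g, hg, rfl⟩
  refine lifts_of (P := (φ.EL X Y).map (M.S.upU F)) (map_le_iff_le_comap.2 hE)
    (by rw [← map_commutator, P.EL_perfect (by omega)])
    (fun x hx => ?_) (fun v hv => pol_fix P (by omega) fun g hg => hv _ ⟨g, hg, rfl⟩) fun g hg => ?_
  · have k : ∀ g ∈ φ.EL X Y, ∀ v, x.toAddMonoidHom (g v) = g (x.toAddMonoidHom v) :=
      fun g hg v => (congrArg (fun f : M.S.E => f v) (hx _ ⟨g, hg, rfl⟩)).symm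
    obtain ⟨c, hc⟩ := pol_scalar P (by omega) _ k
    obtain ⟨c', hc'⟩ := pol_scalar P.symm (by omega) _ (by rwa [← EL_symm])
    exact mz' x c c' hc hc'
  let r := rep (F := F) M.Ω fun g hg => hK.mem_cent.1
    (cent_anti (sym_le _) 1 (iso_mem (one_mem_cent _) (om_le_iso _ hg)))
  have hr : ∀ ω, r ω ∈ φ.Isom := fun ω =>
    (hK.upU_mem_iso.1 (by rw [upU_rep]; exact om_le_iso _ ω.2)).2
  have hc : ∀ (ω : M.Ω), ∀ z ∈ M.Z, ∀ v, r ω (z v) = z (r ω v) := fun ω z hz v =>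
    congrArg (fun f : M.S.E => f v) (iso_cent_comm (om_le_iso _ ω.2) hz)
  have rx : ∀ ω, ∀ v ∈ X, r ω v ∈ X := fun ω v hv => by rw [x2, ← hc _ _ s.mem, (x2 v).1 hv]
  have ry : ∀ ω, ∀ v ∈ Y, r ω v ∈ Y := fun ω v hv => by
    rw [y2, ← hc _ _ (s.star hZ).mem, (y2 v).1 hv]
  have rz : ∀ ω : M.Ω, (∃ c : F, ∀ x ∈ X, r ω x = c • x) ↔ ω.1.1 ∈ M.Z := fun ω => by
    constructor
    · rintro ⟨c, e⟩
      refine mz' _ c c⁻¹ e fun y hy => P.symm.ext_x (ry ω y hy) (Y.smul_mem _ hy) fun x hx => ?_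
      have := (hr ω).1 x y
      rw [e x hx, b_smul_left, hs] at this
      by_cases c0 : c = 0
      · have x0 : x = 0 := (r ω).injective (by simp [e x hx, c0])
        simp [x0]
      · rw [b_smul_right, ← this, inv_mul_cancel_left₀ c0]
        rfl
    · intro e
      obtain ⟨a, ha, b, -, e⟩ := s.decomp hZ e
      obtain ⟨c, rfl⟩ := hK.mem_K.1 ha
      exact ⟨c, fun x hx => by
        show ω.1.1 x = _
        simp [e, (x2 x).1 hx, x3 x hx]⟩
  let b : M.V →ₗ[F] M.V →ₗ[F] F := LinearMap.mk₂ F (fun x y => φ.b y x) (by simp) (by simp)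
    (by simp) (by simp [hs])
  have tv : ∀ u ∈ X, ∀ v ∈ Y, b u v = 0 → ∃ ω, ∀ x ∈ X, r ω x = x + b x v • u := fun u hu v hv e =>
    ⟨⟨_, hE _ (tv_EL (P.rd hu hv e) hu hv)⟩, fun x hx => P.tv_x (P.rd hu hv e) hu hx⟩
  obtain ⟨γ, hγ⟩ := levi_iso (b := b) (X := X) (Y := Y)
    (ρ := r.comp ((MonoidHom.fst _ _).comp (Gr M g).subtype))
    (ρ' := r.comp ((MonoidHom.snd _ _).comp (Gr M g).subtype)) M.p
    ⟨P.isCompl, P.riesz, fun f => (P.symm.riesz (φ.ε • f)).imp fun x hx => ⟨hx.1, fun y hy => by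
      show φ.b y x = _
      simp [φ.herm x y, hx.2 y hy, hs]⟩, by omega, by omega⟩
    ⟨fun _ => rx _, fun _ => ry _, fun _ x _ y _ => (hr _).1 y x, fun u hu v hv e =>
      (tv u hu v hv e).elim fun ω h => (Gr_fst hg ω).elim fun w hw => ⟨⟨_, hw⟩, h⟩⟩
    ⟨fun _ => rx _, fun _ => ry _, fun _ x _ y _ => (hr _).1 y x, fun u hu v hv e =>
      (tv u hu v hv e).elim fun ω h => (Gr_snd hg ω).elim fun w hw => ⟨⟨_, hw⟩, h⟩⟩
    fun x => (rz _).trans ((Gr_scal x.2).trans (rz _).symm)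
  refine ⟨γ, fun x hx => ?_⟩
  obtain ⟨c, c', h1, h2⟩ := hγ ⟨x, hx⟩
  refine ⟨_, mz c c', fun v => ?_⟩
  have e1 := h1 _ (mx v)
  have e2 := h2 _ (my v)
  change γ (x.1.1.1 _) = c • r x.2 _ at e1
  change γ (x.1.1.1 _) = c' • r x.2 _ at e2
  conv_lhs => rw [← ad v, map_add, map_add, map_add, e1, e2, hc _ _ s.mem, hc _ _ (s.star hZ).mem]
  rfl

/-- **Automorphisms of classical groups of large rank.** -/
theorem lifts : ∃ d, LIFTS d := ⟨30, fun G _ _ T M hn => by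
  rcases M.scal.cases with hf | ⟨η, s⟩
  · obtain ⟨F, _, _, _, φ, τ, hK⟩ := exists_real M.scal hf
    exact lifts_fld hK hn
  · obtain ⟨F, _, _, _, φ, τ, hK⟩ := exists_real M.scal.sym_scal fun x hx h0 => M.scal.inv_sym hx h0
    exact lifts_spl s hK hn⟩

end Vale.Agent.P183AU
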