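import Vale.Agent.P183AU.FormIso

/-!
Projective isomorphisms of linear groups are induced by semilinear maps or dualities.
-/

set_option autoImplicit false
set_option linter.all false

namespace Vale.Agent.P183AU

open Module Vale.Agent.P183CF

variable {Γ F V : Type*} [Group Γ] [Field F] [AddCommGroup V] [Module F V]

/-- A representation whose image contains all transvections. -/
structure LR (ρ : Γ →* (V ≃ₗ[F] V)) : Prop where
  tv : ∀ (u : V) (f : Dual F V), f u = 0 → ∃ γ, ∀ x, ρ γ x = x + f x • u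
  dim : 5 ≤ finrank F V

lemma exists_notMem (l : List V) (h : l.length < finrank F V) : ∃ z, z ∉ sp F l := by
  by_contra hn
  push Not at hn
  have h1 := finrank_sp (F := F) l
  rw [show sp F l = ⊤ from eq_top_iff.2 fun z _ => hn z, finrank_top] at h1
  omega

lemma sp_cons (x : V) (l : List V) : sp F (x :: l) = sp F l ⊔ F ∙ x := by
  have : {y | y ∈ x :: l} = {y | y ∈ l} ∪ {x} := by ext; simp
  rw [sp, this, Submodule.span_union]
  rfl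

lemma scalar_of_all (hd : 3 ≤ finrank F V) (T : V →+ V) (h : ∀ v, ∃ c : F, T v = c • v) :
    ∃ c : F, ∀ v, T v = c • v := by
  choose c hc using h
  have k : ∀ x y, I2 F x y → c x = c y := fun x y hi => by
    have := hi (c x - c (x + y)) (c y - c (x + y)) (by
      have e := hc (x + y)
      rw [map_add, hc x, hc y] at e
      rw [← sub_self (c (x + y) • (x + y))]
      nth_rewrite 1 [← e]
      module)
    rw [sub_eq_zero.1 this.1, sub_eq_zero.1 this.2]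
  obtain ⟨e, he⟩ := exists_notMem (F := F) (V := V) [] (by simp; omega)
  have e0 : e ≠ 0 := fun k => he (k ▸ zero_mem _)
  refine ⟨c e, fun v => ?_⟩
  by_cases v0 : v = 0
  · simp [v0]
  obtain ⟨z, hz⟩ := exists_notMem (F := F) [e, v] (by simp; omega)
  rw [mem_sp2] at hz
  rw [hc, k e z (Col.i2_l e0 hz), k v z (Col.i2_r v0 hz)]

/-- the group of transvections with centre `u` -/
def Tv (ρ : Γ →* (V ≃ₗ[F] V)) (u : V) : Subgroup Γ where
  carrier := {γ | ρ γ u = u ∧ ∀ x, ∃ c : F, ρ γ x = x + c • u}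
  one_mem' := ⟨by simp, fun x => ⟨0, by simp⟩⟩
  mul_mem' := fun {a b} ha hb => ⟨by rw [rep_mul, hb.1, ha.1], fun x => by
    obtain ⟨c, hc⟩ := ha.2 x
    obtain ⟨d, hd⟩ := hb.2 x
    exact ⟨c + d, by rw [rep_mul, hd, map_add, map_smul, hc, ha.1]; module⟩⟩
  inv_mem' := fun {a} ha => by
    have k : ρ a⁻¹ u = u := by
      nth_rewrite 1 [← ha.1]
      rw [rep_inv]
    refine ⟨k, fun x => ?_⟩
    obtain ⟨c, hc⟩ := ha.2 x
    have := congrArg (ρ a⁻¹) hc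
    rw [rep_inv, map_add, map_smul, k] at this
    exact ⟨-c, by rw [neg_smul, ← sub_eq_add_neg, eq_sub_iff_add_eq, ← this]⟩

/-- the group theoretic form of collinearity -/
def Ln (p : ℕ) (Z A B C : Subgroup Γ) : Prop :=
  ∀ γ, (∃ k : ℕ, γ ^ p ^ k ∈ Z) → γ ∈ A → γ ∈ B → γ ∈ C

namespace LR

variable {ρ : Γ →* (V ≃ₗ[F] V)} (h : LR ρ)
include h

lemma move1 {l : List V} {w w' : V} (h1 : w ∉ sp F l) (h2 : w' ∉ sp F (w :: l)) :
    ∃ γ, (∀ x ∈ l, ρ γ x = x) ∧ ρ γ w = w' := by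
  obtain ⟨f1, a1, a2⟩ := exists_fun h1
  obtain ⟨f, b1, b2⟩ := exists_fun' h2 f1 1
  have e : f w = 1 := by rw [b2 w (mem_sp (by simp)), a1]
  obtain ⟨γ, hγ⟩ := h.tv (w' - w) f (by simp [e, b1])
  exact ⟨γ, fun x hx => by
    rw [hγ, b2 x (mem_sp (by simp [hx])), a2 x (mem_sp hx), zero_smul, add_zero], by simp [hγ, e]⟩

lemma move {l : List V} (hl : l.length ≤ 2) {w w' : V} (h1 : w ∉ sp F l) (h2 : w' ∉ sp F l) :
    ∃ γ, (∀ x ∈ l, ρ γ x = x) ∧ ρ γ w = w' := by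
  obtain ⟨z, hz⟩ := exists_notMem (F := F) (w :: w' :: l) (by have := h.dim; simp; omega)
  obtain ⟨a, a1, a2⟩ := h.move1 h1 (w' := z) fun k => hz (sp_mono (by simp; tauto) k)
  obtain ⟨b, b1, b2⟩ := h.move1 h2 (w' := z) fun k => hz (sp_mono (by simp; tauto) k)
  refine ⟨b⁻¹ * a, fun x hx => ?_, by rw [rep_mul, a2, ← b2, rep_inv]⟩
  rw [rep_mul, a1 x hx]
  nth_rewrite 1 [← b1 x hx]
  rw [rep_inv]

lemma trans {u w : V} (u0 : u ≠ 0) (w0 : w ≠ 0) : ∃ γ, ρ γ u = w :=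
  let ⟨γ, _, e⟩ := h.move (l := []) (by simp) (notMem_sp0 u0) (notMem_sp0 w0)
  ⟨γ, e⟩

lemma rank2 (u : V) : Rank2 (St ρ u) := fun x y hx hy => by
  obtain ⟨a, a1, a2⟩ := h.move (l := [u]) (by simp) (w := ρ x u) (w' := ρ y u)
    (mt mem_sp1.1 hx) (mt mem_sp1.1 hy)
  refine ⟨a, ⟨1, by simp [a1 u]⟩, (y⁻¹ * a * x)⁻¹, inv_mem ⟨1, ?_⟩, by group⟩
  rw [rep_mul, rep_mul, a2, rep_inv, one_smul]

lemma tv_fix {u w : V} (u0 : u ≠ 0) (hw : Tv ρ u ≤ St ρ w) : ∃ c : F, w = c • u := by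
  by_contra hn
  rw [← mem_sp1] at hn
  obtain ⟨f, f1, f2⟩ := exists_fun hn
  obtain ⟨γ, hγ⟩ := h.tv u f (f2 u (mem_sp (by simp)))
  obtain ⟨c, hc⟩ := hw (show γ ∈ Tv ρ u from ⟨by simp [hγ, f2 u (mem_sp (by simp))],
    fun x => ⟨_, hγ x⟩⟩)
  have i2 : I2 F u w := i2_of u0 fun k => hn (k.mem (mem_sp (by simp)) (mem_sp (by simp)))
  exact one_ne_zero (i2 1 (1 - c) (by
    rw [← sub_self (c • w)]
    nth_rewrite 1 [← hc]
    rw [hγ, f1]
    module)).1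

lemma smul_of_St {u w : V} (u0 : u ≠ 0) (e : St ρ u ≤ St ρ w) : ∃ c : F, w = c • u :=
  h.tv_fix u0 fun γ hγ => e ⟨1, by simp [hγ.1]⟩

lemma St_ne_top {u : V} (u0 : u ≠ 0) : St ρ u ≠ ⊤ := fun e => by
  obtain ⟨z, hz⟩ := exists_notMem (F := F) [u] (by have := h.dim; simp; omega)
  obtain ⟨γ, rfl⟩ := h.trans u0 (w := z) fun k => hz (k ▸ zero_mem _)
  exact hz (mem_sp1.2 (show γ ∈ St ρ u by rw [e]; trivial))

variable {p : ℕ} [hp : Fact p.Prime] [CharP F p]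

omit h in
lemma tv_pz (u : V) : PZ p (Zs ρ) (Tv ρ u) := fun γ hγ => by
  refine ⟨2, unip_pow ρ fun v => ?_⟩
  obtain ⟨c, hc⟩ := hγ.2 v
  simp [hc, hγ.1]

lemma loc_St {u : V} (u0 : u ≠ 0) : Loc p (Zs ρ) (St ρ u) := by
  refine ⟨Tv ρ u, fun γ hγ => ⟨1, by simp [hγ.1]⟩, tv_pz u, fun hle => ?_, ?_⟩
  · obtain ⟨z, hz⟩ := exists_notMem (F := F) [u] (by have := h.dim; simp; omega)
    exact hz (mem_sp1.2 (h.tv_fix u0 (hle.trans (Zs_le_St ρ z))))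
  · rintro m ⟨c, hc⟩ γ hγ
    refine ⟨?_, fun x => ?_⟩
    · rw [rep_mul, rep_mul, eig_inv ρ hc, map_smul, hγ.1, ← eig_inv ρ hc, rep_inv']
    · obtain ⟨d, hd⟩ := hγ.2 (ρ m⁻¹ x)
      exact ⟨d * c, by rw [rep_mul, rep_mul, hd, map_add, rep_inv', map_smul, hc, smul_smul]⟩

lemma in2_iff {x y z : V} (x0 : x ≠ 0) (y0 : y ≠ 0) :
    In2 F z x y ↔ Ln p (Zs ρ) (St ρ x) (St ρ y) (St ρ z) := by
  refine ⟨?_, fun k => ?_⟩
  · rintro ⟨a, b, rfl⟩ γ ⟨k, hk⟩ ⟨c, hc⟩ ⟨d, hd⟩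
    exact ⟨c, by rw [map_add, map_smul, map_smul, hc, hd, eig_eq ρ hk x0 y0 hc hd]; module⟩
  by_contra hn
  obtain ⟨f, f1, f2⟩ := exists_fun (mt mem_sp2.1 hn)
  have fx := f2 x (mem_sp (by simp))
  obtain ⟨γ, hγ⟩ := h.tv x f fx
  obtain ⟨c, hc⟩ := k γ (tv_pz x γ ⟨by simp [hγ, fx], fun x => ⟨_, hγ x⟩⟩) ⟨1, by simp [hγ, fx]⟩
    ⟨1, by simp [hγ, f2 y (mem_sp (by simp))]⟩
  exact one_ne_zero (Col.i2_l x0 hn 1 (1 - c) (by
    rw [← sub_self (c • z)]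
    nth_rewrite 1 [← hc]
    rw [hγ, f1]
    module)).1

variable [Finite F] [FiniteDimensional F V]

omit [CharP F p] in
lemma not_rank2 {M : Subgroup Γ} {C : Submodule F V} (hM : Inv ρ M C) {a a' b b' : V} (ha : a ∈ C)
    (ha' : a' ∈ C) (i2 : I2 F a a') (hb : ∀ r s : F, r • b + s • b' ∈ C → r = 0 ∧ s = 0)
    (h2 : Rank2 M) : False := by
  have k : ∀ a ∈ C, ∀ a' ∈ C, I2 F a a' → ∃ f : Dual F V, f a = 1 ∧ f a' = 0 ∧ f b = 0 ∧ f b' = 0 := by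
    intro a ha a' ha' i2
    obtain ⟨f, f1, f2⟩ := exists_fun (U := sp F [a', b, b']) (x := a) (fun k => by
      rw [sp_cons, mem_sup_span] at k
      obtain ⟨y, hy, c, e⟩ := k
      obtain ⟨r, s, rfl⟩ := mem_sp2.1 hy
      have := hb r s (by
        rw [← sub_eq_iff_eq_add] at e
        exact e ▸ C.sub_mem ha (C.smul_mem _ ha'))
      exact i2.symm.not_in2 ⟨c, 0, by simp [e, this.1, this.2]⟩)
    exact ⟨f, f1, f2 _ (mem_sp (by simp)), f2 _ (mem_sp (by simp)), f2 _ (mem_sp (by simp))⟩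
  obtain ⟨f, f1, f2, f3, f4⟩ := k a ha a' ha' i2
  obtain ⟨g, g1, g2, g3, g4⟩ := k a' ha' a ha i2.symm
  obtain ⟨x, hx⟩ := h.tv b f f3
  obtain ⟨y, hy⟩ := h.tv b' g g4
  let D : Γ → ℕ := fun x => finrank F (C ⊓ C.map (ρ x : V →ₗ[F] V) : Submodule F V)
  have D1 : D 1 = finrank F C := by simp only [D]; rw [hM.map M.one_mem, inf_idem]
  have t1 : C ⊓ LinearMap.ker f < C := lt_of_le_of_ne inf_le_left fun e => by
    simpa [f1] using (e.ge ha).2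
  have t2 : C ⊓ LinearMap.ker f ⊓ LinearMap.ker g < C ⊓ LinearMap.ker f :=
    lt_of_le_of_ne inf_le_left fun e => by simpa [g1] using (e.ge ⟨ha', f2⟩).2
  have e1 : C ⊓ C.map (ρ x : V →ₗ[F] V) = C ⊓ LinearMap.ker f := by
    refine le_antisymm ?_ fun v hv => ⟨hv.1, v, hv.1, by simp [hx, show f v = 0 from hv.2]⟩
    rintro _ ⟨h1, v, hv, rfl⟩
    have := (hb (f v) 0 (by simpa [hx] using C.sub_mem h1 hv)).1
    exact ⟨h1, by simp [hx, this]⟩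
  have e2 : C ⊓ C.map (ρ (x * y) : V →ₗ[F] V) ≤ C ⊓ LinearMap.ker f ⊓ LinearMap.ker g := by
    rintro _ ⟨h1, v, hv, rfl⟩
    have e : ρ (x * y) v = v + (f v • b + g v • b') := by
      rw [rep_mul, hy, hx]
      simp only [map_add, map_smul, f4]
      module
    change ρ (x * y) v ∈ C at h1
    change ρ (x * y) v ∈ _
    rw [e] at h1 ⊢
    have := hb (f v) (g v) (by simpa using C.sub_mem h1 hv)
    exact ⟨⟨h1, by simp [this.1, this.2]⟩, by simp [this.1, this.2]⟩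
  have d1 := Submodule.finrank_lt_finrank_of_lt t1
  have d2 := Submodule.finrank_lt_finrank_of_lt t2
  have d3 : D (x * y) ≤ _ := Submodule.finrank_mono e2
  have d4 : D x = finrank F (C ⊓ LinearMap.ker f : Submodule F V) := by simp only [D]; rw [e1]
  exact h2.false D (fun a ha b hb x => finrank_inf_dc ρ hM ha hb x) (x := x) (y := x * y)
    (by omega) (by omega) (by omega)

lemma exists_base [Finite Γ] (P : Sylow p Γ) : ∃ v, v ≠ 0 ∧ P.1 ≤ St ρ v ∧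
    ∀ W : Submodule F V, W ≠ ⊥ → Inv ρ P.1 W → v ∈ W := by
  obtain ⟨u, hu⟩ := exists_notMem (F := F) (V := V) [] (by have := h.dim; simp; omega)
  have u0 : u ≠ 0 := fun e => hu (e ▸ zero_mem _)
  obtain ⟨g, h1, h2⟩ := P183AU.exists_base ρ P (tv_pz u) fun w => h.tv_fix u0
  exact ⟨_, rep_ne ρ g u0, h1, h2⟩

end LR

lemma Rank2.eq_of_le {M K : Subgroup Γ} (h : Rank2 M) (e : M ≤ K) (hK : K ≠ ⊤) : M = K := by
  refine le_antisymm e fun x hx => by_contra fun hn => hK (eq_top_iff.2 fun y _ => ?_)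
  by_cases hy : y ∈ M
  · exact e hy
  obtain ⟨a, ha, b, hb, rfl⟩ := h x y hn hy
  exact K.mul_mem (K.mul_mem (e ha) hx) (e hb)

variable {F' V' V'' : Type*} [Field F'] [AddCommGroup V'] [Module F' V'] [AddCommGroup V'']
  [Module F' V''] {ρ : Γ →* (V ≃ₗ[F] V)} {ρ' : Γ →* (V' ≃ₗ[F'] V')} {ρ'' : Γ →* (V'' ≃ₗ[F'] V'')}

/-- `G` is semilinear and intertwines `ρ` and `ρ'` up to scalars. -/
structure PIso (ρ : Γ →* (V ≃ₗ[F] V)) (ρ' : Γ →* (V' ≃ₗ[F'] V')) (τ : F ≃+* F') (G : V ≃+ V') :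
    Prop where
  smul : ∀ (c : F) v, G (c • v) = τ c • G v
  comm : ∀ γ, ∃ c : F', ∀ v, G (ρ γ v) = c • ρ' γ (G v)

theorem lin_iso_of_St (p : ℕ) [Fact p.Prime] [CharP F p] [CharP F' p] (h : LR ρ) (h' : LR ρ')
    (hZ : Zs ρ = Zs ρ') {v : V} {v' : V'} (v0 : v ≠ 0) (v0' : v' ≠ 0) (e0 : St ρ v = St ρ' v') :
    ∃ (τ : F ≃+* F') (G : V ≃+ V'), PIso ρ ρ' τ G := by
  classical
  have ex : ∀ u, u ≠ 0 → ∃ u', u' ≠ 0 ∧ St ρ u = St ρ' u' := fun u hu => by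
    obtain ⟨γ, rfl⟩ := h.trans v0 hu
    exact ⟨ρ' γ v', rep_ne ρ' γ v0', St_rep_congr e0 γ⟩
  let β : V → V' := fun u => if hu : u ≠ 0 then (ex u hu).choose else 0
  have hβ : ∀ u, u ≠ 0 → β u ≠ 0 ∧ St ρ u = St ρ' (β u) := fun u h1 => by
    have : β u = (ex u h1).choose := dif_pos h1
    rw [this]
    exact (ex u h1).choose_spec
  have onto : ∀ w, w ≠ 0 → ∃ z, z ≠ 0 ∧ ∃ c : F', β z = c • w := fun w w0 => by
    obtain ⟨γ, rfl⟩ := h'.trans v0' w0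
    have h2 := rep_ne ρ γ v0
    exact ⟨ρ γ v, h2, h'.smul_of_St w0 ((St_rep_congr e0 γ).symm.trans (hβ _ h2).2).le⟩
  have col : Col F F' Set.univ (fun _ _ => True) β :=
    { smul := fun _ _ _ => trivial
      add := fun _ _ _ _ _ => trivial
      self := fun _ _ => trivial
      symm := fun _ _ _ => trivial
      adj_smul := fun _ _ _ _ => trivial
      adj_add := fun _ _ _ _ _ => trivial
      gen := fun a b c d => by
        obtain ⟨z, hz⟩ := exists_notMem (F := F) [a, b, c, d] (by have := h.dim; simp; omega)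
        refine ⟨z, trivial, trivial, trivial, trivial, trivial, fun r s t u e => hz ?_⟩
        rw [e]
        refine add_mem (add_mem (add_mem ?_ ?_) ?_) ?_ <;>
          exact Submodule.smul_mem _ _ (mem_sp (by simp))
      ne := fun x _ x0 => (hβ x x0).1
      line := fun x _ y _ z _ x0 y0 z0 _ => by
        rw [h.in2_iff (p := p) x0 y0, h'.in2_iff (p := p) (hβ x x0).1 (hβ y y0).1, hZ, (hβ x x0).2,
          (hβ y y0).2, (hβ z z0).2]
      onto := fun x _ y _ _ _ _ w w0 _ => let ⟨z, z0, e⟩ := onto w w0; ⟨z, trivial, z0, e⟩ }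
  obtain ⟨τ, g, gl, ga, gs⟩ := col.main
  let G1 : V →+ V' := AddMonoidHom.mk' g fun x y => ga x trivial y trivial trivial
  have hinj : Function.Injective G1 := (injective_iff_map_eq_zero G1).2 fun x hx => by
    by_contra x0
    obtain ⟨c, c0, e⟩ := gl x trivial x0
    exact smul_ne_zero c0 (hβ x x0).1 (e.symm.trans hx)
  have hsur : Function.Surjective G1 := fun w => by
    by_cases w0 : w = 0
    · exact ⟨0, by simp [w0]⟩
    obtain ⟨z, z0, c, e⟩ := onto w w0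
    obtain ⟨d, d0, e'⟩ := gl z trivial z0
    have hc : c ≠ 0 := fun e0 => (hβ z z0).1 (by rw [e, e0, zero_smul])
    refine ⟨τ.symm (d * c)⁻¹ • z, ?_⟩
    show g _ = w
    rw [gs _ z trivial, e', e, smul_smul, smul_smul, RingEquiv.apply_symm_apply, mul_assoc,
      inv_mul_cancel₀ (mul_ne_zero d0 hc), one_smul]
  let G : V ≃+ V' := AddEquiv.ofBijective G1 ⟨hinj, hsur⟩
  have k : ∀ u, u ≠ 0 → St ρ u = St ρ' (G u) := fun u h2 => by
    obtain ⟨c, c0, e⟩ := gl u trivial h2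
    rw [show G u = c • β u from e, St_smul ρ' c0]
    exact (hβ u h2).2
  refine ⟨τ, G, fun c v => gs c v trivial, fun γ => ?_⟩
  let T : V' →+ V' := ((ρ' γ⁻¹ : V' →ₗ[F'] V') : V' →+ V').comp
    ((G : V →+ V').comp (((ρ γ : V →ₗ[F] V) : V →+ V).comp (G.symm : V' →+ V)))
  have hT : ∀ u, T (G u) = ρ' γ⁻¹ (G (ρ γ u)) := fun u => by simp [T]
  obtain ⟨c, hc⟩ := scalar_of_all (F := F') (by have := h'.dim; omega) T fun w => by
    obtain ⟨u, rfl⟩ := G.surjective w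
    by_cases u0 : u = 0
    · exact ⟨0, by simp [u0]⟩
    obtain ⟨c, hc⟩ := h'.smul_of_St (u := ρ' γ (G u)) (w := G (ρ γ u))
      (rep_ne ρ' γ (G.map_ne_zero_iff.2 u0))
      ((St_rep_congr (k u u0) γ).symm.trans (k _ (rep_ne ρ γ u0))).le
    exact ⟨c, by rw [hT, hc, map_smul, rep_inv]⟩
  refine ⟨c, fun u => ?_⟩
  have := congrArg (ρ' γ) ((hT u).symm.trans (hc _))
  rwa [rep_inv', map_smul] at this

/-- An invariant perfect pairing. -/
structure Pair (ρ' : Γ →* (V' ≃ₗ[F'] V')) (ρ'' : Γ →* (V'' ≃ₗ[F'] V''))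
    (B : V' →ₗ[F'] V'' →ₗ[F'] F') : Prop where
  left : ∀ f : Dual F' V', ∃ y, ∀ x, B x y = f x
  right : ∀ g : Dual F' V'', ∃ x, ∀ y, B x y = g y
  inv : ∀ γ x y, B (ρ' γ x) (ρ'' γ y) = B x y

lemma Pair.Zs_le {B : V' →ₗ[F'] V'' →ₗ[F'] F'} (h : Pair ρ' ρ'' B) : Zs ρ' ≤ Zs ρ'' := by
  intro γ hγ
  obtain ⟨c, hc⟩ := (Zs ρ').inv_mem hγ
  refine ⟨c, fun y => sub_eq_zero.1 (by_contra fun hn => ?_)⟩
  obtain ⟨g, g1, -⟩ := exists_fun (F := F') (notMem_sp0 hn)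
  obtain ⟨x, hx⟩ := h.right g
  have := h.inv γ (ρ' γ⁻¹ x) y
  rw [rep_inv', hc] at this
  rw [← hx, map_sub, this] at g1
  simp at g1

lemma Pair.flip {B : V' →ₗ[F'] V'' →ₗ[F'] F'} (h : Pair ρ' ρ'' B) : Pair ρ'' ρ' B.flip :=
  ⟨h.right, h.left, fun γ x y => h.inv γ y x⟩

lemma Pair.Zs_eq {B : V' →ₗ[F'] V'' →ₗ[F'] F'} (h : Pair ρ' ρ'' B) : Zs ρ' = Zs ρ'' :=
  le_antisymm h.Zs_le h.flip.Zs_le

/-- **Isomorphisms of linear groups.** -/
theorem lin_iso [Finite Γ] [Finite F] [FiniteDimensional F V] [Finite F'] [FiniteDimensional F' V']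
    [FiniteDimensional F' V''] (p : ℕ) [Fact p.Prime] [CharP F p] [CharP F' p] (h : LR ρ)
    (h' : LR ρ') (h'' : LR ρ'') {B : V' →ₗ[F'] V'' →ₗ[F'] F'} (hB : Pair ρ' ρ'' B)
    (hZ : Zs ρ = Zs ρ') : (∃ (τ : F ≃+* F') (G : V ≃+ V'), PIso ρ ρ' τ G) ∨
      ∃ (τ : F ≃+* F') (G : V ≃+ V''), PIso ρ ρ'' τ G := by
  obtain ⟨P⟩ : Nonempty (Sylow p Γ) := inferInstance
  obtain ⟨v, v0, v2, -⟩ := h.exists_base P
  obtain ⟨a, a0, -, a3⟩ := h'.exists_base P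
  obtain ⟨y, y0, -, y3⟩ := h''.exists_base P
  by_cases e1 : St ρ v ≤ St ρ' a
  · exact Or.inl (lin_iso_of_St p h h' hZ v0 a0 ((h.rank2 v).eq_of_le e1 (h'.St_ne_top a0)))
  by_cases e2 : St ρ v ≤ St ρ'' y
  · exact Or.inr (lin_iso_of_St p h h'' (hZ.trans hB.Zs_eq) v0 y0
      ((h.rank2 v).eq_of_le e2 (h''.St_ne_top y0)))
  exfalso
  obtain ⟨Q, q1, q2, q3, q4⟩ : Loc p (Zs ρ') (St ρ v) := hZ ▸ h.loc_St v0
  have k := Fx_inv ρ' q2 q4
  obtain ⟨w, -, w0, w2⟩ := exists_mem_Fx ρ' q2 (W := ⊤) (fun e => a0 ((Submodule.mem_bot F').1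
    (by rw [← e]; trivial))) fun _ _ _ _ => trivial
  have aC := a3 _ (fun e => w0 ((Submodule.mem_bot F').1 (e ▸ w2))) fun γ hγ => k γ (v2 hγ)
  let C' : Submodule F' V'' := ⨅ x ∈ Fx ρ' q2, LinearMap.ker (B x)
  have mC : ∀ z, z ∈ C' ↔ ∀ x ∈ Fx ρ' q2, B x z = 0 := fun z => by simp [C']
  have k' : Inv ρ'' (St ρ v) C' := fun γ hγ z hz => (mC _).2 fun x hx => by
    rw [← rep_inv' ρ' γ x, hB.inv]
    exact (mC z).1 hz _ (k _ (inv_mem hγ) x hx)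
  have yC := y3 C' (fun e => by
    obtain ⟨b, hb⟩ : ∃ b, b ∉ Fx ρ' q2 := by
      by_contra hn
      push Not at hn
      exact Fx_ne_top ρ' q2 q3 (eq_top_iff.2 fun b _ => hn b)
    obtain ⟨f, f1, f2⟩ := exists_fun hb
    obtain ⟨z, hz⟩ := hB.left f
    have := (Submodule.mem_bot F').1 (e ▸ (mC z).2 fun x hx => (hz x).trans (f2 x hx))
    rw [← hz, this] at f1
    simp at f1) fun γ hγ => k' γ (v2 hγ)
  obtain ⟨m, hm, m1⟩ := SetLike.not_le_iff_exists.1 e1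
  obtain ⟨n, hn, n1⟩ := SetLike.not_le_iff_exists.1 e2
  have i1 : I2 F' a (ρ' m a) := i2_of a0 fun ⟨r, s, e⟩ => m1 ⟨r + s, by rw [e, add_smul]⟩
  have i2 : I2 F' y (ρ'' n y) := i2_of y0 fun ⟨r, s, e⟩ => n1 ⟨r + s, by rw [e, add_smul]⟩
  have kk : ∀ y y' : V'', I2 F' y y' → ∃ b, B b y = 1 ∧ B b y' = 0 := fun y y' i => by
    obtain ⟨g, g1, g2⟩ := exists_fun (U := sp F' [y']) (x := y) fun k =>
      i.symm.not_in2 (let ⟨c, hc⟩ := mem_sp1.1 k; ⟨c, 0, by simp [hc]⟩)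
    obtain ⟨b, hb⟩ := hB.right g
    exact ⟨b, (hb _).trans g1, (hb _).trans (g2 _ (mem_sp (by simp)))⟩
  obtain ⟨b, b1, b2⟩ := kk _ _ i2
  obtain ⟨b', b3, b4⟩ := kk _ _ i2.symm
  refine h'.not_rank2 k aC (k m hm a aC) i1 (b := b) (b' := b') (fun r s e => ?_) (h.rank2 v)
  have t1 := (mC _).1 yC _ e
  have t2 := (mC _).1 (k' n hn y yC) _ e
  simp only [map_add, map_smul, LinearMap.add_apply, LinearMap.smul_apply, b1, b2, b3, b4] at t1 t2
  exact ⟨by simpa using t1, by simpa using t2⟩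

end Vale.Agent.P183AU
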