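import Vale.Agent.P183M.IF

/-!
A full subgroup for which the natural module is natural is normal.
-/

set_option autoImplicit false
set_option linter.all false

namespace Vale.Agent.P183AU

open Matrix Subgroup Vale.Agent.P183M
open scoped commutatorElement

section
variable {K : Type} [CommRing K] {d : ℕ}

lemma form_ext {A B : Matrix (Fin d) (Fin d) K} (h : ∀ x y, x ⬝ᵥ (A *ᵥ y) = x ⬝ᵥ (B *ᵥ y)) :
    A = B := by
  ext a b
  simpa using h (Pi.single a 1) (Pi.single b 1)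

lemma form_mul {d' : ℕ} (M : Matrix (Fin d) (Fin d') K) (J : Matrix (Fin d) (Fin d) K)
    (x y : Fin d' → K) : (M *ᵥ x) ⬝ᵥ (J *ᵥ (M *ᵥ y)) = x ⬝ᵥ ((Mᵀ * J * M) *ᵥ y) := by
  rw [← mulVec_mulVec, ← mulVec_mulVec, dotProduct_mulVec x, vecMul_transpose]

lemma quad_zero (f : (Fin d → K) → K) (h1 : ∀ x y, f (x + y) = f x + f y)
    (h2 : ∀ (c : K) x, f (c • x) = c ^ 2 * f x) (h3 : ∀ a, f (Pi.single a 1) = 0) (x : Fin d → K) :
    f x = 0 := by
  rw [pi_eq_sum_univ' x, show f _ = AddMonoidHom.mk' f h1 _ from rfl, map_sum]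
  exact Finset.sum_eq_zero fun a _ => (h2 _ _).trans (by rw [h3, mul_zero])

lemma quad_ext {f g : (Fin d → K) → K} {B : (Fin d → K) → (Fin d → K) → K}
    (f1 : ∀ x y, f (x + y) = f x + f y + B x y) (g1 : ∀ x y, g (x + y) = g x + g y + B x y)
    (f2 : ∀ (c : K) x, f (c • x) = c ^ 2 * f x) (g2 : ∀ (c : K) x, g (c • x) = c ^ 2 * g x)
    (h3 : ∀ a, f (Pi.single a 1) = g (Pi.single a 1)) (x : Fin d → K) : f x = g x :=
  sub_eq_zero.1 (quad_zero (fun x => f x - g x) (fun x y => by rw [f1, g1]; ring)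
    (fun c x => by rw [f2, g2]; ring) (fun a => sub_eq_zero.2 (h3 a)) x)

end

variable {G : Type} [Group G] {R F0 : Type} [CommRing R] [Field F0] {d : ℕ} {p : ℕ}
  {k : Type} [Field k]

/-- adjoint matrices -/
def Adj (D : Dat G R F0 d) (M N : Matrix (Fin d) (Fin d) R) : Prop :=
  (M.map D.σ)ᵀ * D.J = D.J * N

variable {D : Dat G R F0 d} {M N M₁ N₁ : Matrix (Fin d) (Fin d) R}

lemma β_mul (M : Matrix (Fin d) (Fin d) R) (x y : Fin d → R) :
    D.β (M *ᵥ x) y = (fun a => D.σ (x a)) ⬝ᵥ (((M.map D.σ)ᵀ * D.J) *ᵥ y) := by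
  rw [← mulVec_mulVec, dotProduct_mulVec, vecMul_transpose]
  unfold Dat.β
  congr 1
  exact funext fun a => RingHom.map_mulVec D.σ.toRingHom M x a

lemma adj_iff : Adj D M N ↔ ∀ x y, D.β (M *ᵥ x) y = D.β x (N *ᵥ y) := by
  constructor
  · intro h x y
    rw [β_mul, h, ← mulVec_mulVec]
    rfl
  · intro h
    refine form_ext fun x y => ?_
    have := h (fun a => D.σ.symm (x a)) y
    rw [β_mul] at this
    simpa [Dat.β] using this

lemma Adj.add (h : Adj D M N) (h1 : Adj D M₁ N₁) : Adj D (M + M₁) (N + N₁) := by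
  unfold Adj at *
  rw [Matrix.map_add _ (map_add D.σ), transpose_add, add_mul, h, h1, mul_add]

lemma Adj.neg (h : Adj D M N) : Adj D (-M) (-N) := by
  unfold Adj at *
  rw [Matrix.map_neg _ (map_neg D.σ), transpose_neg, neg_mul, h, mul_neg]

lemma Adj.zero : Adj D 0 0 := by simp [Adj]

lemma Adj.mul (h : Adj D M N) (h1 : Adj D M₁ N₁) : Adj D (M * M₁) (N₁ * N) :=
  adj_iff.2 fun x y => by
    rw [← mulVec_mulVec, adj_iff.1 h, adj_iff.1 h1, mulVec_mulVec]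

lemma Adj.rho (c : CD p D) (g : G) : Adj D (D.ρ g) (D.ρ g⁻¹) := adj_iff.2 fun x y => by
  rw [← c.inv g x, mulVec_mulVec, ← map_mul, mul_inv_cancel, map_one, one_mulVec]

lemma Adj.symm (c : CD p D) (h : Adj D M N) : Adj D N M := adj_iff.2 fun x y => by
  obtain ⟨ε, -, e⟩ := c.eps
  rw [e y, ← adj_iff.1 h, ← e]

lemma Adj.uniq (c : CD p D) (h : Adj D M N) (h1 : Adj D M N₁) : N = N₁ :=
  ((isUnit_iff_isUnit_det _).2 c.nondeg).mul_left_cancel ((Eq.symm h).trans h1)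

lemma zero_of (c : CD p D) (θ : R →+* k) {r : R} (h1 : θ r = 0) (h2 : θ (D.σ r) = 0) : r = 0 := by
  have k : ∀ s, D.σ s = s → θ s = 0 → s = 0 := fun s e1 e2 => by
    obtain ⟨t, rfl⟩ := (c.fix s).1 e1
    rw [(map_eq_zero (θ.comp D.ι)).1 e2, map_zero]
  have a1 := k (r + D.σ r) (by rw [map_add, c.sq, add_comm]) (by rw [map_add, h1, h2, add_zero])
  have a2 := k (r * D.σ r) (by rw [map_mul, c.sq, mul_comm]) (by rw [map_mul, h1, zero_mul])
  have := c.red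
  exact IsReduced.eq_zero r ⟨2, by linear_combination r * a1 - a2⟩

lemma Adj.kill (c : CD p D) (θ : R →+* k) (h : Adj D M N) (h1 : M.map θ = 0) (h2 : N.map θ = 0) :
    M = 0 := by
  have e : ((M.map D.σ)ᵀ).map θ = 0 := by
    rw [← Matrix.mul_one (M.map D.σ)ᵀ, ← mul_nonsing_inv _ c.nondeg, ← Matrix.mul_assoc, h,
      Matrix.map_mul, Matrix.map_mul, h2, Matrix.mul_zero, Matrix.zero_mul]
  ext i j
  exact zero_of c θ (congrFun (congrFun h1 i) j) (congrFun (congrFun e j) i)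

/-- extension of the quadratic form -/
lemma ext_Q (c : CD p D) (hq : D.quad) (θ : R →+* k) : ∃ Q : (Fin d → k) → k,
    (∀ x y, Q (x + y) = Q x + Q y + x ⬝ᵥ (D.J.map θ *ᵥ y)) ∧
    (∀ (c : k) x, Q (c • x) = c ^ 2 * Q x) ∧ (∀ x, D.sing x ↔ Q (θ ∘ x) = 0) ∧
    (∀ g, ((D.ρ g).map θ)ᵀ * D.J.map θ * (D.ρ g).map θ = D.J.map θ) ∧
    ∀ g x, Q ((D.ρ g).map θ *ᵥ x) = Q x := by
  obtain ⟨-, -, hσ, Q, q1, q2, q3, q4⟩ := c.quadr hq
  have hβ : ∀ x y, D.β x y = x ⬝ᵥ (D.J *ᵥ y) := fun x y => by simp [Dat.β, hσ]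
  let A : Matrix (Fin d) (Fin d) R :=
    Matrix.of fun a b => if a = b then Q (Pi.single a 1) else if a < b then D.J a b else 0
  have hb : ∀ a b, D.β (Pi.single a 1) (Pi.single b 1) = D.J a b := fun a b => by simp [hβ]
  have hA : A + Aᵀ = D.J := by
    ext a b
    have e1 := q1 (Pi.single a 1) (Pi.single b 1)
    have e2 := q1 (Pi.single b 1) (Pi.single a 1)
    rw [hb] at e1 e2
    rcases lt_trichotomy a b with h | rfl | h
    · simp [A, h, h.ne, h.ne', h.not_gt]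
    · have e3 := q2 2 (Pi.single a 1)
      rw [two_smul] at e3
      simp only [A, Matrix.add_apply, transpose_apply, of_apply, if_true]
      linear_combination e1 - e3
    · rw [add_comm] at e2
      simp only [A, Matrix.add_apply, transpose_apply, of_apply, if_neg h.ne, if_neg h.ne', if_pos h,
        if_neg h.not_gt]
      linear_combination e1 - e2
  have k1 : ∀ {K : Type} [CommRing K] (A : Matrix (Fin d) (Fin d) K) (x y : Fin d → K),
      (x + y) ⬝ᵥ (A *ᵥ (x + y)) = x ⬝ᵥ (A *ᵥ x) + y ⬝ᵥ (A *ᵥ y) + x ⬝ᵥ ((A + Aᵀ) *ᵥ y) := by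
    intro K _ A x y
    rw [mulVec_add, add_mulVec, add_dotProduct, dotProduct_add, dotProduct_add, dotProduct_add,
      mulVec_transpose, dotProduct_comm x (y ᵥ* A), ← dotProduct_mulVec]
    ring
  have k2 : ∀ {K : Type} [CommRing K] (A : Matrix (Fin d) (Fin d) K) (c : K) (x : Fin d → K),
      (c • x) ⬝ᵥ (A *ᵥ (c • x)) = c ^ 2 * (x ⬝ᵥ (A *ᵥ x)) := by
    intro K _ A c x
    rw [mulVec_smul, smul_dotProduct, dotProduct_smul, smul_eq_mul, smul_eq_mul]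
    ring
  have a1 : ∀ x y, (x + y) ⬝ᵥ (A.map θ *ᵥ (x + y)) =
      x ⬝ᵥ (A.map θ *ᵥ x) + y ⬝ᵥ (A.map θ *ᵥ y) + x ⬝ᵥ (D.J.map θ *ᵥ y) := fun x y => by
    rw [k1, ← hA, Matrix.map_add _ (map_add θ), transpose_map]
  have a3 : ∀ x, (θ ∘ x) ⬝ᵥ (A.map θ *ᵥ (θ ∘ x)) = θ (Q x) := fun x => by
    rw [quad_ext q1 (g := fun x => x ⬝ᵥ (A *ᵥ x)) (fun x y => by rw [k1, hA, hβ]) q2 (k2 A)
      (fun a => by simp [A]) x, RingHom.map_dotProduct]
    congr 1
    exact funext fun a => (RingHom.map_mulVec θ A x a).symm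
  have a4 : ∀ g, ((D.ρ g).map θ)ᵀ * D.J.map θ * (D.ρ g).map θ = D.J.map θ := fun g => by
    rw [← transpose_map, ← Matrix.map_mul, ← Matrix.map_mul]
    congr 1
    exact form_ext fun x y => by rw [← form_mul, ← hβ, ← hβ, c.inv]
  refine ⟨fun x => x ⬝ᵥ (A.map θ *ᵥ x), a1, k2 _, fun x => ?_, a4, fun g => ?_⟩
  · show _ ↔ (θ ∘ x) ⬝ᵥ (A.map θ *ᵥ (θ ∘ x)) = 0
    rw [q3, a3]
    exact ⟨fun h => by rw [h, map_zero], fun h => zero_of c θ h (by rw [hσ, h])⟩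
  refine quad_ext (f := fun x => ((D.ρ g).map θ *ᵥ x) ⬝ᵥ (A.map θ *ᵥ ((D.ρ g).map θ *ᵥ x)))
    (fun x y => by rw [mulVec_add, a1, form_mul _ (D.J.map θ), a4]) a1
    (fun c x => by rw [mulVec_smul, k2]) (k2 _) fun a => ?_
  have e1 : (Pi.single a 1 : Fin d → k) = θ ∘ Pi.single a 1 := by
    ext b; by_cases h : b = a <;> simp [h]
  have e2 : (D.ρ g).map θ *ᵥ (θ ∘ Pi.single a 1) = θ ∘ (D.ρ g *ᵥ Pi.single a 1) :=
    funext fun b => (RingHom.map_mulVec θ _ _ b).symm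
  rw [e1, e2, a3, a3, q4]

section rel
variable {G' : Type} [Group G'] {R' F0' : Type} [CommRing R'] [Field F0'] {d' : ℕ}

/-- intertwined matrices -/
def Iw (θ : R →+* k) (θ' : R' →+* k) (e : (Fin d' → k) ≃ₗ[k] (Fin d → k))
    (M : Matrix (Fin d) (Fin d) R) (M' : Matrix (Fin d') (Fin d') R') : Prop :=
  ∀ x, e (M'.map θ' *ᵥ x) = M.map θ *ᵥ e x

/-- matrices intertwined together with their adjoints -/
def Rw (D : Dat G R F0 d) (D' : Dat G' R' F0' d') (θ : R →+* k) (θ' : R' →+* k)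
    (e : (Fin d' → k) ≃ₗ[k] (Fin d → k)) (M : Matrix (Fin d) (Fin d) R)
    (M' : Matrix (Fin d') (Fin d') R') : Prop :=
  ∃ N N', Adj D M N ∧ Adj D' M' N' ∧ Iw θ θ' e M M' ∧ Iw θ θ' e N N'

variable {D' : Dat G' R' F0' d'} {θ : R →+* k} {θ' : R' →+* k}
  {e : (Fin d' → k) ≃ₗ[k] (Fin d → k)} {M' M₁' : Matrix (Fin d') (Fin d') R'}

lemma Iw.add (h : Iw θ θ' e M M') (h1 : Iw θ θ' e M₁ M₁') : Iw θ θ' e (M + M₁) (M' + M₁') :=
  fun x => by
    rw [Matrix.map_add _ (map_add θ), Matrix.map_add _ (map_add θ'), add_mulVec, add_mulVec, map_add,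
      h, h1]

lemma Iw.neg (h : Iw θ θ' e M M') : Iw θ θ' e (-M) (-M') := fun x => by
  rw [Matrix.map_neg _ (map_neg θ), Matrix.map_neg _ (map_neg θ'), neg_mulVec, neg_mulVec, map_neg, h]

lemma Iw.mul (h : Iw θ θ' e M M') (h1 : Iw θ θ' e M₁ M₁') : Iw θ θ' e (M * M₁) (M' * M₁') :=
  fun x => by rw [Matrix.map_mul, Matrix.map_mul, ← mulVec_mulVec, ← mulVec_mulVec, h, h1]

lemma Iw.flip (h : Iw θ θ' e M M') : Iw θ' θ e.symm M' M := fun x => by
  rw [e.symm_apply_eq, h, e.apply_symm_apply]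

lemma Iw.zero (h : Iw θ θ' e M 0) : M.map θ = 0 := form_ext fun x y => by
  have := h (e.symm y)
  rw [e.apply_symm_apply] at this
  simp [← this]

lemma Rw.add (h : Rw D D' θ θ' e M M') (h1 : Rw D D' θ θ' e M₁ M₁') :
    Rw D D' θ θ' e (M + M₁) (M' + M₁') := by
  obtain ⟨_, _, a1, a2, a3, a4⟩ := h
  obtain ⟨_, _, b1, b2, b3, b4⟩ := h1
  exact ⟨_, _, a1.add b1, a2.add b2, a3.add b3, a4.add b4⟩

lemma Rw.neg (h : Rw D D' θ θ' e M M') : Rw D D' θ θ' e (-M) (-M') := by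
  obtain ⟨_, _, a1, a2, a3, a4⟩ := h
  exact ⟨_, _, a1.neg, a2.neg, a3.neg, a4.neg⟩

lemma Rw.mul (h : Rw D D' θ θ' e M M') (h1 : Rw D D' θ θ' e M₁ M₁') :
    Rw D D' θ θ' e (M * M₁) (M' * M₁') := by
  obtain ⟨_, _, a1, a2, a3, a4⟩ := h
  obtain ⟨_, _, b1, b2, b3, b4⟩ := h1
  exact ⟨_, _, a1.mul b1, a2.mul b2, a3.mul b3, b4.mul a4⟩

lemma Rw.flip (h : Rw D D' θ θ' e M M') : Rw D' D θ' θ e.symm M' M := by
  obtain ⟨_, _, a1, a2, a3, a4⟩ := h
  exact ⟨_, _, a2, a1, a3.flip, a4.flip⟩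

lemma Rw.uniq (c : CD p D) (c' : CD p D') (h : Rw D D' θ θ' e M M') (h1 : Rw D D' θ θ' e M₁ M') :
    M = M₁ := by
  obtain ⟨N, N', a1, a2, a3, a4⟩ := h.add h1.neg
  rw [add_neg_cancel] at a2 a3
  rw [a2.uniq c' Adj.zero] at a4
  exact add_neg_eq_zero.1 (a1.kill c θ a3.zero a4.zero)

variable {ψ : G' →* G}

lemma quad_case (c : CD p D) (c' : CD p D') (hq : D.quad) (hq' : D'.quad) (hd : 2 ≤ d)
    (hF : ∀ M, M ∈ AddSubgroup.closure (Set.range fun g => D.ρ (ψ g)))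
    (he : ∀ g, Iw θ θ' e (D.ρ (ψ g)) (D'.ρ g)) {y : G} (h : Iw θ θ' e (D.ρ y) M') (x : Fin d' → R')
    (hx : D'.sing x) : D'.sing (M' *ᵥ x) := by
  obtain ⟨Q, q1, q2, -, q4, q5⟩ := ext_Q c hq θ
  obtain ⟨Q', r1, r2, r3, r4, r5⟩ := ext_Q c' hq' θ'
  let J2 := (LinearMap.toMatrix' e.symm.toLinearMap)ᵀ * D'.J.map θ' *
    LinearMap.toMatrix' e.symm.toLinearMap
  have j1 : ∀ x y, x ⬝ᵥ (J2 *ᵥ y) = e.symm x ⬝ᵥ (D'.J.map θ' *ᵥ e.symm y) := fun x y => by
    rw [← form_mul]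
    simp
  have j2 : ∀ g, ((D.ρ (ψ g)).map θ)ᵀ * J2 * (D.ρ (ψ g)).map θ = J2 := fun g =>
    form_ext fun x y => by rw [← form_mul, j1, j1, (he g).flip, (he g).flip, form_mul, r4]
  have hJ : IsUnit (D.J.map θ).det := by
    rw [← RingHom.mapMatrix_apply, ← RingHom.map_det]
    exact c.nondeg.map θ
  obtain ⟨μ, hμ⟩ : (D.J.map θ)⁻¹ * J2 ∈ Set.range (Matrix.scalar (Fin d)) := by
    have : ∀ M : Matrix (Fin d) (Fin d) R, Commute (M.map θ) ((D.J.map θ)⁻¹ * J2) := fun M => by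
      induction hF M using AddSubgroup.closure_induction with
      | mem _ hM =>
        obtain ⟨g, rfl⟩ := hM
        have u1 : (D.ρ (ψ g⁻¹)).map θ * (D.ρ (ψ g)).map θ = 1 := by
          rw [← Matrix.map_mul, ← map_mul, ← map_mul, inv_mul_cancel]
          simp
        refine ((isUnit_iff_isUnit_det _).2 hJ).mul_left_cancel ?_
        have u2 := congrArg (· * (D.ρ (ψ g)).map θ) (q4 (ψ g⁻¹))
        have u3 := congrArg (· * (D.ρ (ψ g)).map θ) (j2 g⁻¹)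
        simp only [Matrix.mul_assoc, u1, Matrix.mul_one] at u2 u3
        rw [← Matrix.mul_assoc, ← u2, Matrix.mul_assoc, Matrix.mul_assoc,
          mul_nonsing_inv_cancel_left _ _ hJ, mul_nonsing_inv_cancel_left _ _ hJ, u3]
      | zero => simp
      | add _ _ _ _ h1 h2 => rw [Matrix.map_add _ (map_add θ)]; exact h1.add_left h2
      | neg _ _ h1 => rw [Matrix.map_neg _ (map_neg θ)]; exact h1.neg_left
    refine mem_range_scalar_of_commute_single fun a b _ => ?_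
    simpa using this (single a b 1)
  have j3 : ∀ x y, x ⬝ᵥ (J2 *ᵥ y) = μ * (x ⬝ᵥ (D.J.map θ *ᵥ y)) := fun x y => by
    rw [← mul_nonsing_inv_cancel_left _ J2 hJ, ← hμ, ← mulVec_mulVec,
      show scalar (Fin d) μ *ᵥ y = μ • y by ext; simp [mulVec_diagonal], mulVec_smul, dotProduct_smul,
      smul_eq_mul]
  let f : (Fin d → k) → k := fun x => Q' (e.symm x) - μ * Q x
  have f1 : ∀ x y, f (x + y) = f x + f y := fun x y => by
    simp only [f]
    rw [map_add, r1, q1, ← j1, j3]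
    ring
  have f2 : ∀ (c : k) x, f (c • x) = c ^ 2 * f x := fun c x => by
    simp only [f]
    rw [map_smul, r2, q2]
    ring
  have f3 : ∀ x, f (-x) = f x := fun x => by simpa using f2 (-1) x
  have f4 : ∀ M : Matrix (Fin d) (Fin d) R, ∃ c : k, ∀ x, f (M.map θ *ᵥ x) = c * f x := fun M => by
    induction hF M using AddSubgroup.closure_induction with
    | mem _ hM =>
      obtain ⟨g, rfl⟩ := hM
      refine ⟨1, fun x => ?_⟩
      simp only [f]
      rw [(he g).flip, r5, q5, one_mul]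
    | zero => exact ⟨0, fun x => by simpa using f2 0 x⟩
    | add _ _ _ _ h1 h2 =>
      obtain ⟨c1, h1⟩ := h1
      obtain ⟨c2, h2⟩ := h2
      exact ⟨c1 + c2, fun x => by
        rw [Matrix.map_add _ (map_add θ), add_mulVec, f1, h1, h2, add_mul]⟩
    | neg _ _ h1 =>
      obtain ⟨c1, h1⟩ := h1
      exact ⟨c1, fun x => by rw [Matrix.map_neg _ (map_neg θ), neg_mulVec, f3, h1]⟩
  have f5 := quad_zero f f1 f2 fun a => by
    have : Nontrivial (Fin d) := Fin.nontrivial_iff_two_le.2 hd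
    obtain ⟨b, hb⟩ := exists_ne a
    obtain ⟨c, hc⟩ := f4 (single a b 1)
    have h0 : f 0 = 0 := by simpa using f2 0 0
    have t1 := hc (Pi.single a 1)
    have t2 := hc (Pi.single b 1)
    rw [map_single, map_one, single_mulVec] at t1 t2
    rw [Pi.single_eq_of_ne hb, mul_zero,
      show Function.update (0 : Fin d → k) a 0 = 0 by simp, h0] at t1
    rw [Pi.single_eq_same, mul_one] at t2
    rcases mul_eq_zero.1 t1.symm with t | t
    · rw [t, zero_mul] at t2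
      exact t2
    · exact t
  have f6 : ∀ x, Q' x = μ * Q (e x) := fun x => by
    simpa [f, sub_eq_zero] using f5 (e x)
  rw [r3] at hx ⊢
  rw [show θ' ∘ (M' *ᵥ x) = M'.map θ' *ᵥ (θ' ∘ x) from funext (RingHom.map_mulVec θ' _ _), f6, h,
    q5, ← f6, hx]

end rel

lemma comm_central {H : Type} [Group H] {u w a b : H} (hu : u ∈ center H) (hw : w ∈ center H) :
    ⁅u * a, w * b⁆ = ⁅a, b⁆ := by
  rw [mem_center_iff] at hu hw
  rw [commutatorElement_def, commutatorElement_def, _root_.mul_inv_rev, _root_.mul_inv_rev]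
  calc u * a * (w * b) * (a⁻¹ * u⁻¹) * (b⁻¹ * w⁻¹)
      = u * (a * w * b * a⁻¹) * u⁻¹ * (b⁻¹ * w⁻¹) := by group
    _ = w * (a * b * a⁻¹ * b⁻¹) * w⁻¹ := by rw [← hu, mul_inv_cancel_right, hw a]; group
    _ = _ := by rw [← hw, mul_inv_cancel_right]

theorem nf : NF := by
  intro p _ G _ T' T C' C ψ h1 h2 hO hF hq θ ⟨θ', e, he⟩ t ht x hx
  have c := C.kind.cd
  have c' := C'.kind.cd
  have he : ∀ g, Iw θ θ' e (C.D.ρ (ψ g)) (C'.D.ρ g) := he
  have hr : ∀ g, Rw C.D C'.D θ θ' e (C.D.ρ (ψ g)) (C'.D.ρ g) := fun g =>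
    ⟨_, _, Adj.rho c _, Adj.rho c' _, he g, by rw [← map_inv]; exact he _⟩
  have hF' : ∀ M, M ∈ AddSubgroup.closure (Set.range fun g => C.D.ρ (ψ g)) := fun M => by
    have := (Subring.mem_closure_iff).1 (hF.ge (Subring.mem_top M))
    refine AddSubgroup.closure_mono ?_ this
    refine (Submonoid.closure_le (S := MonoidHom.mrange (C.D.ρ.comp ψ))).2 ?_
    rintro _ ⟨w, hw, rfl⟩
    have k : ∀ a ∈ T'.comap C.θ, ∃ a', ∃ u ∈ center _,
        C.D.ρ.toHomUnits a = u * C.D.ρ.toHomUnits (ψ a') := fun a ha => by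
      obtain ⟨a', ha'⟩ := C'.range.ge ha
      obtain ⟨r, hr⟩ := (C.ker (a * (ψ a')⁻¹)).1 (by rw [map_mul, map_inv, hO, ha', mul_inv_cancel])
      refine ⟨a', C.D.ρ.toHomUnits (a * (ψ a')⁻¹), mem_center_iff.2 fun v => Units.ext ?_, by simp⟩
      simp only [Units.val_mul, MonoidHom.coe_toHomUnits, hr]
      simp
    obtain ⟨_, ⟨v, rfl⟩, hv⟩ := (commutator_le.2 fun a ha b hb => by
      obtain ⟨a', u, hu, e1⟩ := k a ha
      obtain ⟨b', w, hw, e2⟩ := k b hb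
      refine ⟨_, ⟨⁅a', b'⁆, rfl⟩, ?_⟩
      simp only [map_commutatorElement]
      rw [e1, e2, comm_central hu hw] :
      _ ≤ (ψ.range.map C.D.ρ.toHomUnits).comap C.D.ρ.toHomUnits) hw
    exact ⟨v, congrArg Units.val hv⟩
  obtain ⟨y, rfl⟩ := C.range.ge ht
  obtain ⟨g, rfl⟩ := C'.range.ge hx
  obtain ⟨h, hh⟩ : ∃ h, Rw C.D C'.D θ θ' e (C.D.ρ y) h := by
    generalize C.D.ρ y = M
    induction hF' M using AddSubgroup.closure_induction with
    | mem _ hM =>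
      obtain ⟨g, rfl⟩ := hM
      exact ⟨_, hr g⟩
    | zero => exact ⟨0, 0, 0, Adj.zero, Adj.zero, fun x => by simp, fun x => by simp⟩
    | add _ _ _ _ h1 h2 => exact ⟨_, h1.choose_spec.add h2.choose_spec⟩
    | neg _ _ h1 => exact ⟨_, h1.choose_spec.neg⟩
  obtain ⟨N, h', a1, a2, a3, a4⟩ := id hh
  obtain rfl := a1.uniq c (Adj.rho c y)
  have hh' : Rw C.D C'.D θ θ' e (C.D.ρ y⁻¹) h' := ⟨_, _, a1.symm c, a2.symm c', a4, a3⟩
  have o := hr 1
  rw [map_one, map_one, map_one] at o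
  have b1 : h * h' = 1 := by
    have := hh.mul hh'
    rw [← map_mul, mul_inv_cancel, map_one] at this
    exact this.flip.uniq c' c o.flip
  have b2 : h' * h = 1 := mul_eq_one_comm.1 b1
  have b3 : ∀ x y, C'.D.β (h *ᵥ x) (h *ᵥ y) = C'.D.β x y := fun x y => by
    rw [adj_iff.1 a2, mulVec_mulVec, b2, one_mulVec]
  obtain ⟨g', hg'⟩ := c'.norm h h' b1 b2 b3 (fun x hx => by
    by_cases q : C'.D.quad
    · exact quad_case c c' (hq q) q (by have := c.le_d; omega) hF' he a3 x hx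
    · exact c'.sing_of q _ (by rw [b3, c'.sing_self x hx])) g
  have := (hh.mul (hr g)).mul hh'
  rw [← hg', ← map_mul, ← map_mul] at this
  have e1 := this.uniq c c' (hr g')
  have e2 : C.θ (y * ψ g * y⁻¹ * (ψ g')⁻¹) = 1 := (C.ker _).2 ⟨1, by
    rw [map_mul, e1, ← map_mul, mul_inv_cancel, map_one, one_smul]⟩
  rw [map_mul, map_inv, mul_inv_eq_one, map_mul, map_mul, map_inv, hO, hO] at e2
  rw [e2]
  exact C'.range.le ⟨g', rfl⟩

end Vale.Agent.P183AU
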